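import Vale.Agent.P231.S3B1.Cl
import Vale.Agent.P231.S3A.Mid

/-!
# P231, stage 3, block S3-B1: the corner loops are homotopic to polygons with eight vertices
-/

set_option maxSynthPendingDepth 3
set_option linter.unusedSectionVars false
set_option linter.unusedVariables false

open Bundle Manifold Set Filter Module
open scoped ContDiff Manifold Topology ENNReal

namespace Vale.Agent.P231.S3B1

noncomputable section

open Vale.Agent.P234 Vale.Agent.P231 Vale.Agent.P231.H775 Vale.Agent.P231.Fm Vale.Agent.P231.W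
  Vale.Agent.P231.WD3 Vale.Agent.P231.H766 Vale.Agent.P231.S3A Vale.Agent.P231.S3L
  Vale.Agent.P231.S3R Vale.Agent.P231.WR Vale.Agent.P231.S2N

variable {E : Type*} [NormedAddCommGroup E] [NormedSpace ℝ E] [FiniteDimensional ℝ E]
  {M : Type*} [MetricSpace M] [ChartedSpace E M] [IsManifold 𝓘(ℝ, E) ∞ M]
  [RiemannianBundle (fun x : M => TangentSpace 𝓘(ℝ, E) x)]
  [IsContMDiffRiemannianBundle 𝓘(ℝ, E) ∞ E (fun x : M => TangentSpace 𝓘(ℝ, E) x)]
  {e : ∀ x : M, TangentSpace 𝓘(ℝ, E) x → M}
  [CompactSpace M] [ConnectedSpace M] [IsRiemannianManifold 𝓘(ℝ, E) M]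
  {D : ℝ}

section Loops

variable (F : Facts e) (hD : 0 < D) (hB : InjGE e D) (hdiam : ∀ p q : M, dist p q ≤ D)

include hD hB hdiam in
/-- the arcs between the eight vertices are short -/
theorem cl_arc (y : GY e D) (i : ℤ) {x : ℝ} (hx : x ∈ Icc (0 : ℝ) 1) :
    dist (arc (cl F y) 8 (1 / 16) i 0) (arc (cl F y) 8 (1 / 16) i x) ≤ D / 2 := by
  obtain ⟨hx0, hx1⟩ := hx
  have hq : thc (1 / 4) = 1 / 4 := thc_quarter
  have ht : thc (3 / 4) = 3 / 4 := thc_three
  obtain ⟨k, hk⟩ := i.even_or_odd'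
  rcases hk with rfl | rfl
  · have h0 : arc (cl F y) 8 (1 / 16) (2 * k) 0 = gm e (upo F y (k : ZMod 4), D * thc (1 / 4)) := by
      rw [arc, cl_eq F hD hB hdiam y (i := k) (by push_cast; linarith) (by push_cast; linarith)]
      congr 3
      push_cast
      ring_nf
    have h1 : arc (cl F y) 8 (1 / 16) (2 * k) x =
        gm e (upo F y (k : ZMod 4), D * thc (1 / 4 + x / 2)) := by
      rw [arc, cl_eq F hD hB hdiam y (i := k) (by push_cast; linarith) (by push_cast; linarith)]
      congr 3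
      push_cast
      ring_nf
    have h2 : thc (1 / 4) ≤ thc (1 / 4 + x / 2) := thc_mono (by linarith)
    have h3 : thc (1 / 4 + x / 2) ≤ thc (3 / 4) := thc_mono (by linarith)
    rw [hq] at h2
    rw [ht] at h3
    rw [h0, h1, hq, dist_gm_gm' F hB _ (by nlinarith) (by nlinarith)]
    nlinarith
  · have h0 : arc (cl F y) 8 (1 / 16) (2 * k + 1) 0 =
        gm e (upo F y (k : ZMod 4), D * thc (3 / 4)) := by
      rw [arc, cl_eq F hD hB hdiam y (i := k) (by push_cast; linarith) (by push_cast; linarith)]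
      congr 3
      push_cast
      ring_nf
    rcases le_total x (1 / 2) with h | h
    · have h1 : arc (cl F y) 8 (1 / 16) (2 * k + 1) x =
          gm e (upo F y (k : ZMod 4), D * thc (3 / 4 + x / 2)) := by
        rw [arc, cl_eq F hD hB hdiam y (i := k) (by push_cast; linarith) (by push_cast; linarith)]
        congr 3
        push_cast
        ring_nf
      have h2 : thc (3 / 4) ≤ thc (3 / 4 + x / 2) := thc_mono (by linarith)
      have h3 := (thc_mem (3 / 4 + x / 2)).2
      rw [ht] at h2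
      rw [h0, h1, ht, dist_gm_gm' F hB _ (by nlinarith) (by nlinarith)]
      nlinarith
    · have h1 : arc (cl F y) 8 (1 / 16) (2 * k + 1) x =
          gm e (upo F y ((k + 1 : ℤ) : ZMod 4), D * thc (x / 2 - 1 / 4)) := by
        rw [arc, cl_eq F hD hB hdiam y (i := k + 1) (by push_cast; linarith)
          (by push_cast; linarith)]
        congr 3
        push_cast
        ring_nf
      have h2 : thc (x / 2 - 1 / 4) ≤ thc (1 / 4) := thc_mono (by linarith)
      have h3 := (thc_mem (x / 2 - 1 / 4)).1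
      rw [hq] at h2
      have h4 : gm e (upo F y (k : ZMod 4), D) =
          gm e (upo F y ((k + 1 : ℤ) : ZMod 4), (0 : ℝ)) := by
        rw [gm_zero F, seg_fit F hD hB hdiam]
        push_cast
        rfl
      have h5 := dist_gm_gm' F hB (upo F y (k : ZMod 4)) (s := D * thc (3 / 4)) (t := D)
        (by rw [ht]; linarith) (by rw [ht]; linarith)
      have h6 := dist_gm_gm' F hB (upo F y ((k + 1 : ℤ) : ZMod 4)) (s := 0)
        (t := D * thc (x / 2 - 1 / 4)) (by nlinarith) (by nlinarith)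
      have h7 := dist_triangle (gm e (upo F y (k : ZMod 4), D * thc (3 / 4)))
        (gm e (upo F y (k : ZMod 4), D))
        (gm e (upo F y ((k + 1 : ℤ) : ZMod 4), D * thc (x / 2 - 1 / 4)))
      rw [h5] at h7
      rw [h4, h6, ht] at h7
      rw [h0, h1, ht]
      refine h7.trans ?_
      nlinarith

include hD hB hdiam in
/-- **the corner loops are homotopic to the polygons with eight vertices**, through loops of
variation at most `4 D` -/
theorem lht_cl : LHt (dGY e D) (dM E M) (2 * lstp * Scl D) (fun _ => ENNReal.ofReal (4 * D)) (cl F)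
    fun y => pl (geoM F hB) (v8 F y) := by
  have h := ar (m := 8) (o := 1 / 16) (geoM F hB) (lf_cl F hD hB hdiam) (Scl_nonneg hD)
    fun y i x hx => (cl_arc F hD hB hdiam y i hx).trans_lt (by linarith)
  have h1 : (fun y : GY e D => pl (geoM F hB) (vx (cl F) 8 (1 / 16) y)) =
      fun y => pl (geoM F hB) (v8 F y) := funext fun y => by rw [vx_cl F hD hB hdiam y]
  rwa [h1] at h

/-! ### the edges of the polygons -/

theorem map_v8 : (dGY e D).Map (dPi (dM E M) 8) (v8 F) := by
  intro V _ _ _ u x hu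
  have key : ∀ (j : ZMod 4) (t : ℝ), (dM E M).At (fun s => gm e (upo F (u s) j, t)) x :=
    fun j t => map_gm F (u := fun s => (upo F (u s) j, t)) ⟨map_upo F _ hu,
      Sm.of_contDiff contDiff_const _⟩
  intro i
  fin_cases i
  · exact key 0 _
  · exact key 0 _
  · exact key 1 _
  · exact key 1 _
  · exact key 2 _
  · exact key 2 _
  · exact key 3 _
  · exact key 3 _

/-- the edge around the corner between the segments `j` and `j + 1` -/
def ce (F : Facts e) (y : GY e D) (j : ZMod 4) : ℝ :=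
  dist (gm e (upo F y j, 3 * D / 4)) (gm e (upo F y (j + 1), D / 4))

include F hD hB in
theorem dist_half (v : UT E M) : dist (gm e (v, D / 4)) (gm e (v, 3 * D / 4)) = D / 2 := by
  rw [dist_gm_gm' F hB _ (by linarith) (by linarith)]
  ring

include hD hB hdiam in
theorem corner_dist (y : GY e D) (j : ZMod 4) :
    dist (gm e (upo F y j, 3 * D / 4)) (foot (upo F y (j + 1))) = D / 4 ∧
      dist (foot (upo F y (j + 1))) (gm e (upo F y (j + 1), D / 4)) = D / 4 := by
  constructor
  · rw [← seg_fit F hD hB hdiam, dist_gm_gm' F hB _ (by linarith) (by linarith)]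
    ring
  · rw [← gm_zero F (upo F y (j + 1)), dist_gm_gm' F hB _ (by linarith) (by linarith)]
    ring

include hD hB hdiam in
theorem ce_le (y : GY e D) (j : ZMod 4) : ce F y j ≤ D / 2 := by
  obtain ⟨h1, h2⟩ := corner_dist F hD hB hdiam y j
  have h3 := dist_triangle (gm e (upo F y j, 3 * D / 4)) (foot (upo F y (j + 1)))
    (gm e (upo F y (j + 1), D / 4))
  rw [ce]
  linarith

include hD hB in
theorem sd_v8 (y : GY e D) : sd (v8 F y) 0 = D / 2 ∧ sd (v8 F y) 1 = ce F y 0 ∧
    sd (v8 F y) 2 = D / 2 ∧ sd (v8 F y) 3 = ce F y 1 ∧ sd (v8 F y) 4 = D / 2 ∧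
    sd (v8 F y) 5 = ce F y 2 ∧ sd (v8 F y) 6 = D / 2 ∧ sd (v8 F y) 7 = ce F y 3 :=
  ⟨dist_half F hD hB _, rfl, dist_half F hD hB _, rfl, dist_half F hD hB _, rfl,
    dist_half F hD hB _, rfl⟩

theorem forall_z8 {P : ZMod 8 → Prop} (h : ∀ i : Fin 8, P i) : ∀ i, P i := h

include hD hB hdiam in
theorem sd_v8_le (y : GY e D) : ∀ i, sd (v8 F y) i ≤ D / 2 := by
  obtain ⟨h0, h1, h2, h3, h4, h5, h6, h7⟩ := sd_v8 F hD hB y
  refine forall_z8 fun i => ?_
  fin_cases i
  · exact h0.le
  · exact h1.trans_le (ce_le F hD hB hdiam y 0)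
  · exact h2.le
  · exact h3.trans_le (ce_le F hD hB hdiam y 1)
  · exact h4.le
  · exact h5.trans_le (ce_le F hD hB hdiam y 2)
  · exact h6.le
  · exact h7.trans_le (ce_le F hD hB hdiam y 3)

theorem sum_z8 (f : ZMod 8 → ℝ) :
    ∑ i, f i = f 0 + f 1 + f 2 + f 3 + f 4 + f 5 + f 6 + f 7 :=
  Fin.sum_univ_eight (f : Fin 8 → ℝ)

include hD hB in
/-- the perimeter -/
theorem Pe_v8 (y : GY e D) : Pe (v8 F y) = 2 * D + (ce F y 0 + ce F y 1 + ce F y 2 + ce F y 3) := by
  obtain ⟨h0, h1, h2, h3, h4, h5, h6, h7⟩ := sd_v8 F hD hB y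
  rw [Pe, sum_z8, h0, h1, h2, h3, h4, h5, h6, h7]
  ring

include hD hB hdiam in
theorem Pe_v8_le (y : GY e D) : Pe (v8 F y) ≤ 4 * D := by
  rw [Pe_v8 F hD hB]
  have h0 := ce_le F hD hB hdiam y 0
  have h1 := ce_le F hD hB hdiam y 1
  have h2 := ce_le F hD hB hdiam y 2
  have h3 := ce_le F hD hB hdiam y 3
  linarith

/-! ### straight corners -/

include F hB in
theorem eq_of_gm {v w : UT E M} (h : foot v = foot w) {t : ℝ} (h0 : 0 < t) (h1 : t < D)
    (h2 : gm e (v, t) = gm e (w, t)) : v = w := by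
  obtain ⟨⟨x, a⟩, ha⟩ := v
  obtain ⟨⟨y, b⟩, hb⟩ := w
  obtain rfl : x = y := h
  have h3 : a = b := unit_unique F hB ha hb h0 h1 h2
  subst h3
  rfl

include hD hB in
/-- if the edge around the corner has length `D / 2`, the geodesic continues -/
theorem eq_phi_of_dist {v w : UT E M} (hc : gm e (v, D) = foot w)
    (h : dist (gm e (v, 3 * D / 4)) (gm e (w, D / 4)) = D / 2) : w = phi F (v, D) := by
  set b := gm e (v, 3 * D / 4) with hb
  set a := gm e (w, D / 4) with ha
  have hba : dist b a < D := by rw [h]; linarith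
  have hbc : dist b (foot w) = dist b a / 2 := by
    rw [h, ← hc, hb, dist_gm_gm' F hB _ (by linarith) (by linarith)]
    ring
  have hca : dist (foot w) a = dist b a / 2 := by
    rw [h, ← gm_zero F w, ha, dist_gm_gm' F hB _ (by linarith) (by linarith)]
    ring
  have hmid := eq_mid F hB hba hbc hca
  have hne : b ≠ a := by
    intro h3
    rw [h3, dist_self] at h
    linarith
  obtain ⟨z, hz, haz⟩ := exists_unit F hB hne hba
  rw [h] at haz
  have h4 : mid e b a = gam e b z (D / 4) := by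
    rw [haz, mid, gG_foot_gam F hB hz (by rw [abs_of_pos (by linarith)]; linarith)]
    congr 1
    ring
  have h5 : mk b z hz = phi F (v, 3 * D / 4) := by
    refine eq_of_gm F hB rfl (t := D / 4) (by linarith) (by linarith) ?_
    rw [gm_phi]
    change gam e b z (D / 4) = _
    rw [← h4, ← hmid, ← hc]
    congr 2
    ring
  have h6 : a = gm e (mk b z hz, D / 2) := haz
  refine eq_of_gm F hB (t := D / 4) ?_ (by linarith) (by linarith) ?_
  · rw [foot_phi, hc]
  · rw [gm_phi, ← ha, h6, h5, gm_phi]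
    congr 2
    ring

include hD hB hdiam in
/-- the straight loops -/
theorem straight_of_Pe (y : GY e D) (h : Pe (v8 F y) = 4 * D) (j : ZMod 4) :
    upo F y (j + 1) = phi F (upo F y j, D) := by
  have h0 := ce_le F hD hB hdiam y 0
  have h1 := ce_le F hD hB hdiam y 1
  have h2 := ce_le F hD hB hdiam y 2
  have h3 := ce_le F hD hB hdiam y 3
  rw [Pe_v8 F hD hB] at h
  have key : ∀ j, ce F y j = D / 2 → upo F y (j + 1) = phi F (upo F y j, D) := fun j hj =>
    eq_phi_of_dist F hD hB (seg_fit F hD hB hdiam y j) hj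
  revert j
  intro j
  fin_cases j
  · exact key 0 (by linarith)
  · exact key 1 (by linarith)
  · exact key 2 (by linarith)
  · exact key 3 (by linarith)

include hD hB hdiam in
/-- **only the straight loops have length `4 D`** -/
theorem u_of_Pe (y : GY e D) (h : Pe (v8 F y) = 4 * D) :
    y.u 1 = ng (y.u 0) ∧ y.u 2 = y.u 0 ∧ y.u 3 = ng (y.u 0) := by
  have h0 : ng (phi F (y.u 1, D)) = phi F (y.u 0, D) := straight_of_Pe F hD hB hdiam y h 0
  have h1 : y.u 2 = phi F (ng (phi F (y.u 1, D)), D) := straight_of_Pe F hD hB hdiam y h 1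
  have h2 : ng (phi F (y.u 3, D)) = phi F (y.u 2, D) := straight_of_Pe F hD hB hdiam y h 2
  have h3 : y.u 2 = y.u 0 := by rw [h1, h0, phi_D_D F hD hB hdiam]
  have key : ∀ a b : UT E M, ng (phi F (a, D)) = phi F (b, D) → a = ng b := by
    intro a b hab
    have h4 := congrArg (fun v => phi F (v, D)) hab
    simp only [phi_D_D F hD hB hdiam] at h4
    rw [← h4, ng_phi, ng_ng, phi_add, add_neg_cancel, phi_zero]
  rw [h3] at h2
  exact ⟨key _ _ h0, h3, key _ _ h2⟩

include hD hB hdiam in
theorem Pe_v8_lt (y : GY e D) (h : ¬(y.u 1 = ng (y.u 0) ∧ y.u 2 = y.u 0 ∧ y.u 3 = ng (y.u 0))) :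
    Pe (v8 F y) < 4 * D :=
  lt_of_le_of_ne (Pe_v8_le F hD hB hdiam y) fun h1 => h (u_of_Pe F hD hB hdiam y h1)

end Loops

end

end Vale.Agent.P231.S3B1
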