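import Vale.Agent.P231.S3B4.Fa
import Vale.Agent.P231.S3B1.Cl8

/-!
# P231, stage 3, block S3-B1: the form `t₂` of homotopic families of loops
-/

set_option maxSynthPendingDepth 3
set_option linter.unusedSectionVars false
set_option linter.unusedVariables false

open Set Filter Topology Module
open scoped ContDiff ENNReal

namespace Vale.Agent.P231.S3B1

open Vale.Agent.P231.Fm Vale.Agent.P231.H766 Vale.Agent.P231.S3A Vale.Agent.P231.S3L
  Vale.Agent.P231.S3B4 Vale.Agent.P231.H584 Vale.Agent.P231.W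

section Gen

variable {Y : Type*} {DY : Dif Y} {M : Type*} [MetricSpace M] {DM : Dif M} {S : ℝ}
  {V : Y → ℝ≥0∞} {c c' : Y → ℝ → M}

/-- a family of loops in the sense of S3-B4 -/
theorem LF.fa (h : LF DY DM S V c) (hS : 0 ≤ S) :
    FA DY DM S.toNNReal ⊤ 1 1 univ c fun _ _ => 1 where
  opn := TH.opn_univ
  map := map_curry h.smooth
  mapa := fun {E} _ _ _ {u x} hu => Sm.of_contDiff contDiff_const _
  per y _ := h.per y
  lip y _ := LipschitzWith.of_dist_le_mul fun s t => by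
    rw [Real.dist_eq, Real.coe_toNNReal _ hS]
    exact h.lip y s t
  var y _ _ := le_top
  cov y _ _ := ⟨0, by simp⟩

/-- an element of the universal family -/
noncomputable def LF.z0 (h : LF DY DM S V c) (hS : 0 ≤ S) {y : Y}
    (hpt : DY.At (fun _ : ℝ => y) 0) : LL DM S.toNNReal ⊤ 1 1 where
  c := c y
  a := fun _ => 1
  sm := (h.fa hS).sm hpt
  per := h.per y
  lip := (h.fa hS).lip y hpt
  var := le_top
  bound := ⟨0, by simp⟩

/-- `t₂` of a family of loops is closed -/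
theorem LF.T2n_d (h : LF DY DM S V c) (hS : 0 ≤ S) {y : Y}
    (hpt : DY.At (fun _ : ℝ => y) 0) {F : Form DM} (hF : F.d = 0) (hFe : F.sg = F)
    (hFn : F ^ (2 + 1) = 0) : (T2n (fun p => c p.1 p.2) h.smooth F).d = 0 := by
  have h1 := (h.fa hS).T_d (h.z0 hS hpt) hF hFe hFn
  rwa [(h.fa hS).T_eq] at h1

/-- **homotopic families of loops have cohomologous forms `t₂`** -/
theorem LHt.exists_d (h : LHt DY DM S V c c') (hS : 0 ≤ S) {y : Y}
    (hpt : DY.At (fun _ : ℝ => y) 0) {F : Form DM} (hF : F.d = 0) (hFe : F.sg = F)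
    (hFn : F ^ (2 + 1) = 0) : ∃ w : Form DY,
      S3B4.T2n (fun p => c' p.1 p.2) h.right.smooth F -
        S3B4.T2n (fun p => c p.1 p.2) h.left.smooth F = w.d := by
  have hl : (DY.prod (Dif.lin ℝ)).Map DM fun p => c p.1 p.2 := h.left.smooth
  have hr : (DY.prod (Dif.lin ℝ)).Map DM fun p => c' p.1 p.2 := h.right.smooth
  obtain ⟨H, hH, h0, h1⟩ := h
  have hp0 : (DY.prod (Dif.lin ℝ)).At (fun _ : ℝ => (y, (0 : ℝ))) 0 :=
    ⟨hpt, Sm.of_contDiff (contDiff_const (c := (0 : ℝ))) (0 : ℝ)⟩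
  have hcl := hH.T2n_d hS hp0 hF hFe hFn
  have h2 := homotopy' (S3B4.T2n (fun p : (Y × ℝ) × ℝ => H p.1 p.2) hH.smooth F)
  have h3 : ∀ {a : Y → ℝ → M} (ha : (DY.prod (Dif.lin ℝ)).Map DM fun p => a p.1 p.2) (r : ℝ)
      (hr : ∀ y t, a y t = H (y, r) t),
      at_ r (S3B4.T2n (fun p : (Y × ℝ) × ℝ => H p.1 p.2) hH.smooth F) =
        S3B4.T2n (fun p => a p.1 p.2) ha F := fun ha r hr =>
    pull_T2n (f := fun y => (y, r)) (Form.map_slice r) hH.smooth ha
      (fun y t => hr y t) F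
  rw [h3 hr 1 (fun y t => (h1 y 1 t le_rfl).symm), h3 hl 0 (fun y t => (h0 y 0 t le_rfl).symm),
    hcl] at h2
  rw [K_zero, zero_add] at h2
  exact ⟨_, h2⟩

end Gen

/-! ### the corner loops -/

noncomputable section

open Bundle Manifold

open Vale.Agent.P234 Vale.Agent.P231 Vale.Agent.P231.H775 Vale.Agent.P231.WD3 Vale.Agent.P231.S3R
  Vale.Agent.P231.WR

variable {E : Type*} [NormedAddCommGroup E] [NormedSpace ℝ E] [FiniteDimensional ℝ E]
  {M : Type*} [MetricSpace M] [ChartedSpace E M] [IsManifold 𝓘(ℝ, E) ∞ M]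
  [RiemannianBundle (fun x : M => TangentSpace 𝓘(ℝ, E) x)]
  [IsContMDiffRiemannianBundle 𝓘(ℝ, E) ∞ E (fun x : M => TangentSpace 𝓘(ℝ, E) x)]
  {e : ∀ x : M, TangentSpace 𝓘(ℝ, E) x → M}
  [CompactSpace M] [ConnectedSpace M] [IsRiemannianManifold 𝓘(ℝ, E) M]
  {D : ℝ}

theorem at_const_UT' (v : UT E M) : (dUT E M).At (fun _ : ℝ => v) 0 := by
  have h1 : ContMDiff 𝓘(ℝ, ℝ) 𝓘(ℝ, E).tangent ∞ (fun _ : ℝ => v.1) := contMDiff_const
  exact Eventually.of_forall fun y => h1.contMDiffAt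

theorem pt_GY (y : GY e D) : (dGY e D).At (fun _ : ℝ => y) 0 := fun j => at_const_UT' (y.u j)

/-- **the forms `t₂` of the corner loops and of the polygons with eight vertices are
cohomologous** -/
theorem cl_pl (F : Facts e) (hD : 0 < D) (hB : InjGE e D) (hdiam : ∀ p q : M, dist p q ≤ D)
    (y : GY e D) {G : Form (dM E M)} (hG : G.d = 0) (hGe : G.sg = G) (hGn : G ^ (2 + 1) = 0) :
    ∃ w : Form (dGY e D),
      T2n (fun p => pl (geoM F hB) (v8 F p.1) p.2) (lht_cl F hD hB hdiam).right.smooth G -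
        T2n (fun p => cl F p.1 p.2) (lf_cl F hD hB hdiam).smooth G = w.d := by
  have h1 : 0 ≤ 2 * (lstp : ℝ) * Scl D :=
    mul_nonneg (mul_nonneg (by norm_num) lstp.coe_nonneg) (Scl_nonneg hD)
  exact (lht_cl F hD hB hdiam).exists_d h1 (pt_GY y) hG hGe hGn

end

end Vale.Agent.P231.S3B1
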