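import Vale.Agent.P231.S3B1.Sph
import Vale.Agent.P231.H766.SL1

/-!
# P231, stage 3, block S3-B1: the closed family in coordinates, and its margin
-/

set_option maxSynthPendingDepth 3
set_option linter.unusedSectionVars false
set_option linter.unusedVariables false

open Bundle Manifold Set Filter Module
open scoped ContDiff Manifold Topology ENNReal

namespace Vale.Agent.P231.S3B1

noncomputable section

open Vale.Agent.P234 Vale.Agent.P231 Vale.Agent.P231.H775 Vale.Agent.P231.Fm Vale.Agent.P231.W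
  Vale.Agent.P231.WD3 Vale.Agent.P231.H766 Vale.Agent.P231.S3A Vale.Agent.P231.S3L
  Vale.Agent.P231.S3R Vale.Agent.P231.WR Vale.Agent.P231.S2N Vale.Agent.P231.WF

variable {E : Type*} [NormedAddCommGroup E] [NormedSpace ℝ E] [FiniteDimensional ℝ E]
  {M : Type*} [MetricSpace M] [ChartedSpace E M] [IsManifold 𝓘(ℝ, E) ∞ M]
  [RiemannianBundle (fun x : M => TangentSpace 𝓘(ℝ, E) x)]
  [IsContMDiffRiemannianBundle 𝓘(ℝ, E) ∞ E (fun x : M => TangentSpace 𝓘(ℝ, E) x)]
  {e : ∀ x : M, TangentSpace 𝓘(ℝ, E) x → M}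
  [CompactSpace M] [ConnectedSpace M] [IsRiemannianManifold 𝓘(ℝ, E) M]
  {D : ℝ} {ι : Type} [Fintype ι] [DecidableEq ι]

/-- **the unit tangent bundle is covered by finitely many compact pieces** -/
theorem pc_UT : PC (dUT E M) := by
  classical
  rcases isEmpty_or_nonempty (UT E M) with hne | ⟨⟨b₀⟩⟩
  · refine ⟨∅, finite_empty, fun P hP => absurd hP (by simp), ?_⟩
    exact (eq_univ_of_forall fun b => (hne.false b).elim)
  let t := topUT E M
  have hcomp : CompactSpace (UT E M) := compactSpace_UT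
  have h1 : ∀ v₀ : UT E M, ∃ N ∈ 𝓝 v₀, Piece (dUT E M) N := by
    intro v₀
    obtain ⟨F', _, _, _, c, s, h2, h3, h4⟩ := locSec_dUT (E := E) (M := M) v₀
    obtain ⟨r₀, hr₀, h5⟩ := Metric.eventually_nhds_iff.1 ((dUT E M).open' h2)
    have hfd : ProperSpace F' := FiniteDimensional.proper ℝ F'
    refine ⟨{v | s v ∈ Metric.closedBall (s v₀) (r₀ / 2) ∧ c (s v) = v}, ?_, ?_⟩
    · exact Filter.inter_mem (h3 (Metric.closedBall_mem_nhds _ (by positivity))) h4
    · refine ⟨F', inferInstance, inferInstance, inferInstance, c,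
        Metric.closedBall (s v₀) (r₀ / 2), isCompact_closedBall _ _, fun z hz => ?_, fun v hv => ?_⟩
      · exact h5 ((Metric.mem_closedBall.1 hz).trans_lt (by linarith))
      · exact ⟨s v, hv.1, hv.2⟩
  choose N hN hp using h1
  obtain ⟨T, hT⟩ := CompactSpace.elim_nhds_subcover N hN
  refine ⟨N '' (T : Set (UT E M)), (T.finite_toSet).image _, ?_, ?_⟩
  · rintro P ⟨v₀, -, rfl⟩
    exact hp v₀
  · refine eq_univ_of_forall fun b => ?_
    have h6 : b ∈ ⋃ x ∈ T, N x := by rw [hT]; exact mem_univ _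
    obtain ⟨v₀, h7, h8⟩ := mem_iUnion₂.1 h6
    exact ⟨_, ⟨v₀, h7, rfl⟩, h8⟩

variable {F : Facts e} {hD : 0 < D} {hB : InjGE e D} {hdiam : ∀ p q : M, dist p q ≤ D}
  {l : ℕ} {X δ : ι → UT E M → E} {ε : ℝ}
  (hP : ∀ x y : M, dist x y = D → finrank ℝ (H775.Pl e D x y) = l + 1)
  (h : Fam F hD hB hdiam l X δ ε)

/-- the vector of an odd segment, at the foot -/
def odd' (v : UT E M) (c : EuclideanSpace ℝ ι) : UT E M :=
  ng (phi F (sph hP h (phi F (v, D)) c, D))

theorem foot_odd' (v : UT E M) (c : EuclideanSpace ℝ ι) : foot (odd' hP h v c) = foot v := by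
  change bar e D (sph hP h (phi F (v, D)) c) = foot v
  rw [bar_sph]
  change foot (phi F (phi F (v, D), D)) = foot v
  rw [phi_D_D F hD hB hdiam]

theorem bar_odd' (v : UT E M) (c : EuclideanSpace ℝ ι) :
    bar e D (odd' hP h v c) = bar e D v := by
  rw [odd', bar_ng F hD hB hdiam]
  change foot (phi F (phi F (sph hP h (phi F (v, D)) c, D), D)) = bar e D v
  rw [phi_D_D F hD hB hdiam]
  rfl

/-- turning back -/
theorem turn_odd' (v : UT E M) (c : EuclideanSpace ℝ ι) :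
    ng (phi F (odd' hP h v c, D)) = sph hP h (phi F (v, D)) c := by
  rw [odd', phi_ng, ng_ng, phi_add, add_neg_cancel, phi_zero]

theorem at_odd' {E' : Type} [NormedAddCommGroup E'] [NormedSpace ℝ E'] [FiniteDimensional ℝ E']
    {u : E' → UT E M} {c : E' → EuclideanSpace ℝ ι} {x : E'} (hu : (dUT E M).At u x)
    (hc : Sm c x) : (dUT E M).At (fun s => odd' hP h (u s) (c s)) x := by
  have h1 : (dUT E M).At (fun s => phi F (u s, D)) x :=
    map_phi F (u := fun s => (u s, D)) ⟨hu, Sm.of_contDiff contDiff_const _⟩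
  have h2 := at_sph hP h h1 hc
  exact map_ng (map_phi F (u := fun s => (sph hP h (phi F (u s, D)) (c s), D))
    ⟨h2, Sm.of_contDiff contDiff_const _⟩)

theorem odd'_congr {v : UT E M} {c c' : EuclideanSpace ℝ ι}
    (h0 : Pm F D X δ ε v c = Pm F D X δ ε v c') : odd' hP h v c = odd' hP h v c' := by
  rw [odd', odd', sph_congr hP h (c := c) (c' := c') (by
    rw [Fam.Pm_phi F hD hB hdiam]
    exact h0)]

/-- **the family of the corner loops in coordinates** -/
def Gc (p : UT E M × EuclideanSpace ℝ ι × EuclideanSpace ℝ ι × EuclideanSpace ℝ ι) : GY e D where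
  u := ![p.1, odd' hP h p.1 p.2.1, sph hP h p.1 p.2.2.1, odd' hP h p.1 p.2.2.2]
  ft j := by
    fin_cases j
    · rfl
    · exact foot_odd' hP h _ _
    · rfl
    · exact foot_odd' hP h _ _
  br j := by
    fin_cases j
    · rfl
    · exact bar_odd' hP h _ _
    · exact bar_sph hP h _ _
    · exact bar_odd' hP h _ _

section Upo

variable (y : GY e D)

theorem upo_zero : upo F y 0 = y.u 0 := if_pos (show (0 : ZMod 4).val % 2 = 0 by decide)

theorem upo_one : upo F y 1 = ng (phi F (y.u 1, D)) :=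
  if_neg (show ¬(1 : ZMod 4).val % 2 = 0 by decide)

theorem upo_two : upo F y 2 = y.u 2 := if_pos (show (2 : ZMod 4).val % 2 = 0 by decide)

theorem upo_three : upo F y 3 = ng (phi F (y.u 3, D)) :=
  if_neg (show ¬(3 : ZMod 4).val % 2 = 0 by decide)

end Upo

section U

variable (p : UT E M × EuclideanSpace ℝ ι × EuclideanSpace ℝ ι × EuclideanSpace ℝ ι)

@[simp] theorem Gc_zero : (Gc hP h p).u 0 = p.1 := rfl

@[simp] theorem Gc_one : (Gc hP h p).u 1 = odd' hP h p.1 p.2.1 := rfl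

@[simp] theorem Gc_two : (Gc hP h p).u 2 = sph hP h p.1 p.2.2.1 := rfl

@[simp] theorem Gc_three : (Gc hP h p).u 3 = odd' hP h p.1 p.2.2.2 := rfl

/-- the directions at the four corners -/
theorem upo_Gc : upo F (Gc hP h p) 0 = p.1 ∧
    upo F (Gc hP h p) 1 = sph hP h (phi F (p.1, D)) p.2.1 ∧
    upo F (Gc hP h p) 2 = sph hP h p.1 p.2.2.1 ∧
    upo F (Gc hP h p) 3 = sph hP h (phi F (p.1, D)) p.2.2.2 := by
  refine ⟨?_, ?_, ?_, ?_⟩
  · rw [upo_zero, Gc_zero]
  · rw [upo_one, Gc_one, turn_odd']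
  · rw [upo_two, Gc_two]
  · rw [upo_three, Gc_three, turn_odd']

end U

theorem forall_f4 {P : Fin 4 → Prop} (h0 : P 0) (h1 : P 1) (h2 : P 2) (h3 : P 3) : ∀ j, P j := by
  intro j
  fin_cases j
  · exact h0
  · exact h1
  · exact h2
  · exact h3

theorem map_Gc : ((dUT E M).prod (Dif.lin (EuclideanSpace ℝ ι × EuclideanSpace ℝ ι ×
    EuclideanSpace ℝ ι))).Map (dGY e D) (Gc hP h) := by
  intro E' _ _ _ u x hu
  have h0 : Sm (fun s => (u s).2) x := hu.2
  have h1 : Sm (fun s => (u s).2.1) x := by filter_upwards [h0] with s hs using hs.fst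
  have h2 : Sm (fun s => (u s).2.2.1) x := by filter_upwards [h0] with s hs using hs.snd.fst
  have h3 : Sm (fun s => (u s).2.2.2) x := by filter_upwards [h0] with s hs using hs.snd.snd
  refine fun j => ?_
  revert j
  refine forall_f4 ?_ ?_ ?_ ?_
  · exact hu.1
  · exact at_odd' hP h hu.1 h1
  · exact at_sph hP h hu.1 h2
  · exact at_odd' hP h hu.1 h3

theorem GY.ext' {y y' : GY e D} (h : ∀ j, y.u j = y'.u j) : y = y' := by
  cases y
  cases y'
  congr
  exact funext h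

/-- the family depends only on the components in the negative space -/
theorem Gc_congr {v : UT E M} {c c' : EuclideanSpace ℝ ι × EuclideanSpace ℝ ι ×
    EuclideanSpace ℝ ι} (h1 : Pm F D X δ ε v c.1 = Pm F D X δ ε v c'.1)
    (h2 : Pm F D X δ ε v c.2.1 = Pm F D X δ ε v c'.2.1)
    (h3 : Pm F D X δ ε v c.2.2 = Pm F D X δ ε v c'.2.2) : Gc hP h (v, c) = Gc hP h (v, c') := by
  refine GY.ext' (forall_f4 ?_ ?_ ?_ ?_)
  · rw [Gc_zero, Gc_zero]
  · rw [Gc_one, Gc_one]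
    exact odd'_congr hP h h1
  · rw [Gc_two, Gc_two]
    exact sph_congr hP h h2
  · rw [Gc_three, Gc_three]
    exact odd'_congr hP h h3

/-- at the centre the loop is straight -/
theorem Gc_of_zero {v : UT E M} {c : EuclideanSpace ℝ ι × EuclideanSpace ℝ ι ×
    EuclideanSpace ℝ ι} (h1 : Pm F D X δ ε v c.1 = 0)
    (h2 : Pm F D X δ ε v c.2.1 = 0) (h3 : Pm F D X δ ε v c.2.2 = 0) :
    (Gc hP h (v, c)).u 1 = ng v ∧ (Gc hP h (v, c)).u 2 = v ∧ (Gc hP h (v, c)).u 3 = ng v := by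
  have key : ∀ c : EuclideanSpace ℝ ι, Pm F D X δ ε v c = 0 → odd' hP h v c = ng v := by
    intro c hc
    rw [odd', sph_of_zero hP h (by rw [Fam.Pm_phi F hD hB hdiam]; exact hc),
      phi_D_D F hD hB hdiam]
  rw [Gc_one, Gc_two, Gc_three]
  exact ⟨key _ h1, sph_of_zero hP h h2, key _ h3⟩

/-- only the centre gives a straight loop -/
theorem zero_of_Gc {v : UT E M} {c : EuclideanSpace ℝ ι × EuclideanSpace ℝ ι ×
    EuclideanSpace ℝ ι} (h1 : (Gc hP h (v, c)).u 1 = ng v) (h2 : (Gc hP h (v, c)).u 2 = v)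
    (h3 : (Gc hP h (v, c)).u 3 = ng v) :
    Pm F D X δ ε v c.1 = 0 ∧ Pm F D X δ ε v c.2.1 = 0 ∧ Pm F D X δ ε v c.2.2 = 0 := by
  have key : ∀ c : EuclideanSpace ℝ ι, odd' hP h v c = ng v → Pm F D X δ ε v c = 0 := by
    intro c hc
    have h4 := turn_odd' hP h v c
    rw [hc, phi_ng, ng_ng, phi_neg_D F hD hB hdiam] at h4
    have h5 := Pm_of_sph hP h h4.symm
    rwa [Fam.Pm_phi F hD hB hdiam] at h5
  rw [Gc_one] at h1
  rw [Gc_two] at h2
  rw [Gc_three] at h3
  exact ⟨key _ h1, Pm_of_sph hP h h2, key _ h3⟩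

theorem Pe_Gc_lt {v : UT E M} {c : EuclideanSpace ℝ ι × EuclideanSpace ℝ ι ×
    EuclideanSpace ℝ ι} (h0 : ¬(Pm F D X δ ε v c.1 = 0 ∧ Pm F D X δ ε v c.2.1 = 0 ∧
      Pm F D X δ ε v c.2.2 = 0)) : Pe (v8 F (Gc hP h (v, c))) < 4 * D :=
  Pe_v8_lt F hD hB hdiam _ fun h1 => h0 (zero_of_Gc hP h h1.1 h1.2.1 h1.2.2)

/-! ### the margin -/

/-- the radial retraction to the unit ball -/
def cl1 (a : EuclideanSpace ℝ ι) : EuclideanSpace ℝ ι := (max 1 ‖a‖)⁻¹ • a

theorem norm_cl1 (a : EuclideanSpace ℝ ι) : ‖cl1 a‖ = (max 1 ‖a‖)⁻¹ * ‖a‖ := by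
  rw [cl1, norm_smul, norm_inv, Real.norm_of_nonneg (zero_le_one.trans (le_max_left 1 ‖a‖))]

theorem cl1_of_le {a : EuclideanSpace ℝ ι} (ha : ‖a‖ ≤ 1) : cl1 a = a := by
  rw [cl1, max_eq_left ha, inv_one, one_smul]

theorem norm_cl1_of_ge {a : EuclideanSpace ℝ ι} (ha : 1 ≤ ‖a‖) : ‖cl1 a‖ = 1 := by
  rw [norm_cl1, max_eq_right ha, inv_mul_cancel₀ (by linarith)]

theorem norm_cl1_le (a : EuclideanSpace ℝ ι) : ‖cl1 a‖ ≤ 1 := by
  rcases le_total ‖a‖ 1 with h | h
  · rw [cl1_of_le h]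
    exact h
  · exact (norm_cl1_of_ge h).le

theorem le_norm_cl1 {a : EuclideanSpace ℝ ι} {r : ℝ} (ha : r ≤ ‖a‖) : min r 1 ≤ ‖cl1 a‖ := by
  rcases le_total ‖a‖ 1 with h | h
  · rw [cl1_of_le h]
    exact (min_le_left _ _).trans ha
  · rw [norm_cl1_of_ge h]
    exact min_le_right _ _

include h in
theorem Pm_cl1 (v : UT E M) (c : EuclideanSpace ℝ ι) :
    Pm F D X δ ε v (cl1 (Pm F D X δ ε v c)) = cl1 (Pm F D X δ ε v c) := by
  rw [cl1, map_smul, h.Pm_Pm]

theorem sph_cl1 (v : UT E M) (c : EuclideanSpace ℝ ι) :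
    sph hP h v (cl1 (Pm F D X δ ε v c)) = sph hP h v c := by
  rcases le_total ‖Pm F D X δ ε v c‖ 1 with h0 | h0
  · rw [cl1_of_le h0]
    exact sph_Pm hP h v c
  · rw [sph_far hP h (c := c) (by nlinarith), sph_far hP h]
    rw [Pm_cl1 h, norm_cl1_of_ge h0]
    norm_num

theorem odd'_cl1 (v : UT E M) (c : EuclideanSpace ℝ ι) :
    odd' hP h v (cl1 (Pm F D X δ ε v c)) = odd' hP h v c := by
  have h1 := sph_cl1 hP h (phi F (v, D)) c
  rw [Fam.Pm_phi F hD hB hdiam] at h1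
  rw [odd', odd', h1]

theorem Gc_cl1 (v : UT E M) (c : EuclideanSpace ℝ ι × EuclideanSpace ℝ ι ×
    EuclideanSpace ℝ ι) : Gc hP h (v, (cl1 (Pm F D X δ ε v c.1), cl1 (Pm F D X δ ε v c.2.1),
      cl1 (Pm F D X δ ε v c.2.2))) = Gc hP h (v, c) := by
  refine GY.ext' (forall_f4 ?_ ?_ ?_ ?_)
  · rw [Gc_zero, Gc_zero]
  · rw [Gc_one, Gc_one]
    exact odd'_cl1 hP h v c.1
  · rw [Gc_two, Gc_two]
    exact sph_cl1 hP h v c.2.1
  · rw [Gc_three, Gc_three]
    exact odd'_cl1 hP h v c.2.2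

/-- the component in the negative space -/
def PmN (F : Facts e) (D : ℝ) (X δ : ι → UT E M → E) (ε : ℝ) (v : UT E M)
    (c : EuclideanSpace ℝ ι × EuclideanSpace ℝ ι × EuclideanSpace ℝ ι) :
    EuclideanSpace ℝ ι × EuclideanSpace ℝ ι × EuclideanSpace ℝ ι :=
  (Pm F D X δ ε v c.1, Pm F D X δ ε v c.2.1, Pm F D X δ ε v c.2.2)

theorem continuousAt_Pe (F : Facts e) (hB : InjGE e D) {E' : Type} [NormedAddCommGroup E'] [NormedSpace ℝ E']
    [FiniteDimensional ℝ E'] {z : E' → ZMod 8 → M} {x : E'} (hz : (dPi (dM E M) 8).At z x) :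
    ContinuousAt (fun s => Pe (z s)) x :=
  tendsto_finsetSum _ fun i _ =>
    (((geoM F hB).cont (hz i)).dist ((geoM F hB).cont (hz (i + 1))) : ContinuousAt _ _)

/-- **the margin of the closed family** -/
theorem exists_margin {r : ℝ} (hr : 0 < r) : ∃ m, m < 4 * D ∧ ∀ v c,
    r ≤ ‖PmN F D X δ ε v c‖ → Pe (v8 F (Gc hP h (v, c))) < m := by
  set r' : ℝ := min r 1 with hr'
  have hr0 : 0 < r' := lt_min hr one_pos
  have key : ∀ᶠ m in 𝓝 (4 * D), ∀ v : UT E M,
      ∀ c ∈ Metric.closedBall (0 : EuclideanSpace ℝ ι × EuclideanSpace ℝ ι ×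
        EuclideanSpace ℝ ι) 1, r' ≤ ‖PmN F D X δ ε v c‖ → Pe (v8 F (Gc hP h (v, c))) < m := by
    refine pc_UT.eventually (P := fun m v c => r' ≤ ‖PmN F D X δ ε v c‖ →
      Pe (v8 F (Gc hP h (v, c))) < m) (isCompact_closedBall _ _) fun E' _ _ _ u z hu c₀ _ => ?_
    have h0 : (dUT E M).At (fun q : E' × (EuclideanSpace ℝ ι × EuclideanSpace ℝ ι ×
        EuclideanSpace ℝ ι) => u q.1) (z, c₀) :=
      (dUT E M).comp (u := u) (g := Prod.fst) (x := (z, c₀)) hu (Sm.of_contDiff contDiff_fst _)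
    have h1 := h.sm_Pm h0
    have h2 : ContinuousAt (fun p : ℝ × (E' × (EuclideanSpace ℝ ι × EuclideanSpace ℝ ι ×
        EuclideanSpace ℝ ι)) => ‖PmN F D X δ ε (u p.2.1) p.2.2‖) (4 * D, (z, c₀)) := by
      have h3 : ContinuousAt (fun p : ℝ × (E' × (EuclideanSpace ℝ ι × EuclideanSpace ℝ ι ×
          EuclideanSpace ℝ ι)) => Pm F D X δ ε (u p.2.1)) (4 * D, (z, c₀)) :=
        ContinuousAt.comp (f := fun p : ℝ × (E' × (EuclideanSpace ℝ ι × EuclideanSpace ℝ ι ×
          EuclideanSpace ℝ ι)) => p.2) (x := (4 * D, (z, c₀))) h1.continuousAt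
          continuous_snd.continuousAt
      have h4 : ContinuousAt (fun p : ℝ × (E' × (EuclideanSpace ℝ ι × EuclideanSpace ℝ ι ×
          EuclideanSpace ℝ ι)) => p.2.2) (4 * D, (z, c₀)) :=
        (continuous_snd.comp continuous_snd).continuousAt
      exact ((h3.clm_apply h4.fst).prodMk ((h3.clm_apply h4.snd.fst).prodMk
        (h3.clm_apply h4.snd.snd))).norm
    by_cases h3 : ‖PmN F D X δ ε (u z) c₀‖ < r'
    · have h4 := h2.eventually_lt_const h3
      filter_upwards [h4] with p hp hp'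
      exact absurd hp (not_lt.2 hp')
    · have h4 : Pe (v8 F (Gc hP h (u z, c₀))) < 4 * D := by
        refine Pe_Gc_lt hP h fun h5 => h3 ?_
        rw [PmN, h5.1, h5.2.1, h5.2.2]
        simpa using hr0
      have h5 : ((dUT E M).prod (Dif.lin (EuclideanSpace ℝ ι × EuclideanSpace ℝ ι ×
          EuclideanSpace ℝ ι))).At (fun q : E' × (EuclideanSpace ℝ ι × EuclideanSpace ℝ ι ×
            EuclideanSpace ℝ ι) => (u q.1, q.2)) (z, c₀) :=
        ⟨h0, Sm.of_contDiff contDiff_snd _⟩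
      have h6 := continuousAt_Pe F hB (map_v8 F (map_Gc hP h h5))
      have h7 : ContinuousAt (fun p : ℝ × (E' × (EuclideanSpace ℝ ι × EuclideanSpace ℝ ι ×
          EuclideanSpace ℝ ι)) => Pe (v8 F (Gc hP h (u p.2.1, p.2.2)))) (4 * D, (z, c₀)) :=
        ContinuousAt.comp (f := fun p : ℝ × (E' × (EuclideanSpace ℝ ι × EuclideanSpace ℝ ι ×
          EuclideanSpace ℝ ι)) => p.2) (x := (4 * D, (z, c₀))) h6
          continuous_snd.continuousAt
      have h8 := h7.eventually_lt continuous_fst.continuousAt h4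
      filter_upwards [h8] with p hp _ using hp
  obtain ⟨m, h4, h5⟩ := ((key.filter_mono nhdsWithin_le_nhds).and
    (self_mem_nhdsWithin (a := 4 * D) (s := Iio (4 * D)))).exists
  refine ⟨m, h5, fun v c hc => ?_⟩
  rw [← Gc_cl1 hP h v c]
  refine h4 v _ ?_ ?_
  · rw [mem_closedBall_zero_iff, norm_prod_le_iff, norm_prod_le_iff]
    exact ⟨norm_cl1_le _, norm_cl1_le _, norm_cl1_le _⟩
  · have k1 : PmN F D X δ ε v (cl1 (Pm F D X δ ε v c.1), cl1 (Pm F D X δ ε v c.2.1),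
        cl1 (Pm F D X δ ε v c.2.2)) = (cl1 (Pm F D X δ ε v c.1), cl1 (Pm F D X δ ε v c.2.1),
        cl1 (Pm F D X δ ε v c.2.2)) := by
      rw [PmN]
      simp only [Pm_cl1 h]
    rw [k1]
    rw [PmN, Prod.norm_def, Prod.norm_def, le_max_iff, le_max_iff] at hc
    rw [Prod.norm_def, Prod.norm_def, le_max_iff, le_max_iff]
    rcases hc with hc | hc | hc
    · exact Or.inl (le_norm_cl1 hc)
    · exact Or.inr (Or.inl (le_norm_cl1 hc))
    · exact Or.inr (Or.inr (le_norm_cl1 hc))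

end

end Vale.Agent.P231.S3B1
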