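import Vale.Agent.P231.S3B1.Pl
import Vale.Agent.P231.S3R.Chd

/-!
# P231, stage 3, block S3-B1: the family of the loops `p → q → p → q → p`

`GY e D` is the space of quadruples of unit vectors with the same foot `p` and the same point `q` at
distance `D`. The loop of `y` runs from `p` to `q` along `u 0`, back along `u 1`, again to `q` along
`u 2` and back along `u 3`. It is written as a closed polygon with twelve vertices; `v12 y s` moves
the four corners to the midpoints of the neighbouring vertices.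
-/

set_option maxSynthPendingDepth 3
set_option linter.unusedSectionVars false
set_option linter.unusedVariables false

open Bundle Manifold Set Filter Module
open scoped ContDiff Manifold Topology ENNReal

namespace Vale.Agent.P231.S3B1

noncomputable section

open Vale.Agent.P234 Vale.Agent.P231 Vale.Agent.P231.H775 Vale.Agent.P231.Fm Vale.Agent.P231.W
  Vale.Agent.P231.WD3 Vale.Agent.P231.H766 Vale.Agent.P231.S3A Vale.Agent.P231.S3L
  Vale.Agent.P231.S3R

variable {E : Type*} [NormedAddCommGroup E] [NormedSpace ℝ E] [FiniteDimensional ℝ E]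
  {M : Type*} [MetricSpace M] [ChartedSpace E M] [IsManifold 𝓘(ℝ, E) ∞ M]
  [RiemannianBundle (fun x : M => TangentSpace 𝓘(ℝ, E) x)]
  [IsContMDiffRiemannianBundle 𝓘(ℝ, E) ∞ E (fun x : M => TangentSpace 𝓘(ℝ, E) x)]
  {e : ∀ x : M, TangentSpace 𝓘(ℝ, E) x → M}
  [CompactSpace M] [ConnectedSpace M] [IsRiemannianManifold 𝓘(ℝ, E) M]
  {D : ℝ}

/-- four unit vectors with the same foot and the same end -/
structure GY (e : ∀ x : M, TangentSpace 𝓘(ℝ, E) x → M) (D : ℝ) where
  /-- the vectors -/
  u : Fin 4 → UT E M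
  ft : ∀ j, foot (u j) = foot (u 0)
  br : ∀ j, bar e D (u j) = bar e D (u 0)

/-- the diffeology of `GY` -/
def dGY (e : ∀ x : M, TangentSpace 𝓘(ℝ, E) x → M) (D : ℝ) : Dif (GY e D) where
  At {V} _ _ _ y x := ∀ j, (dUT E M).At (fun s => (y s).u j) x
  open' h := eventually_all.2 fun j => (dUT E M).open' (h j)
  congr h huv j := (dUT E M).congr (h j) (huv.mono fun s hs => congrArg (fun y : GY e D => y.u j) hs)
  comp h hg j := (dUT E M).comp (h j) hg

theorem map_u (j : Fin 4) : (dGY e D).Map (dUT E M) fun y => y.u j := fun h => h j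

/-- the point of the geodesic of the vector `j` at time `t` -/
def pt (y : GY e D) (j : Fin 4) (t : ℝ) : M := gm e (y.u j, t)

theorem map_pt (F : Facts e) (j : Fin 4) (t : ℝ) : (dGY e D).Map (dM E M) fun y => pt y j t :=
  fun {V} _ _ _ {u x} h => map_gm F (u := fun s => ((u s).u j, t)) ⟨h j, Sm.of_contDiff
    contDiff_const _⟩

theorem pt_zero (F : Facts e) (y : GY e D) (j : Fin 4) : pt y j 0 = foot (y.u 0) := by
  rw [pt, gm_zero F, y.ft]

theorem pt_D (y : GY e D) (j : Fin 4) : pt y j D = bar e D (y.u 0) := y.br j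

/-- distances along one geodesic -/
theorem dist_gm_gm' (F : Facts e) (hB : InjGE e D) (v : UT E M) {s t : ℝ} (h0 : s ≤ t)
    (h1 : t ≤ s + D) : dist (gm e (v, s)) (gm e (v, t)) = t - s := by
  have h2 := dist_foot_gm hB (phi F (v, s)) (t := t - s) (by linarith) (by linarith)
  rw [foot_phi, gm_phi] at h2
  rwa [show s + (t - s) = t by ring] at h2

theorem dist_pt (F : Facts e) (hB : InjGE e D) (y : GY e D) (j : Fin 4) {s t : ℝ} (h0 : s ≤ t)
    (h1 : t ≤ s + D) : dist (pt y j s) (pt y j t) = t - s := dist_gm_gm' F hB _ h0 h1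

/-! ### one corner -/

/-- the corner `c` between `b` and `a`, moved towards the midpoint -/
def cn (e : ∀ x : M, TangentSpace 𝓘(ℝ, E) x → M) (b c a : M) (s : ℝ) : M :=
  gG e c (mid e b a) (stp s)

section Corner

variable {b c a : M}

theorem corner_ba (hD : 0 < D) (h1 : dist b c = D / 4) (h2 : dist c a = D / 4) :
    dist b a ≤ D / 2 ∧ dist b a < D := by
  have h3 := dist_triangle b c a
  rw [h1, h2] at h3
  constructor <;> linarith

theorem corner_cm (F : Facts e) (hD : 0 < D) (hB : InjGE e D) (h1 : dist b c = D / 4)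
    (h2 : dist c a = D / 4) : dist c (mid e b a) ≤ D / 2 := by
  obtain ⟨h3, h4⟩ := corner_ba hD h1 h2
  have h5 := dist_mid_left F hB h4
  have h6 := dist_triangle c b (mid e b a)
  rw [dist_comm c b, h1, h5] at h6
  linarith

theorem cn_zero (F : Facts e) {s : ℝ} (hs : s ≤ 0) : cn e b c a s = c := by
  rw [cn, stp_of_le (by linarith), gG_zero F]

theorem cn_one (F : Facts e) (hD : 0 < D) (hB : InjGE e D) (h1 : dist b c = D / 4)
    (h2 : dist c a = D / 4) {s : ℝ} (hs : 1 ≤ s) : cn e b c a s = mid e b a := by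
  have h3 := corner_cm F hD hB h1 h2
  rw [cn, stp_of_ge (by linarith), gG_one F hB (by linarith)]

theorem dist_cn (F : Facts e) (hD : 0 < D) (hB : InjGE e D) (h1 : dist b c = D / 4)
    (h2 : dist c a = D / 4) (s : ℝ) :
    dist b (cn e b c a s) ≤ D / 2 ∧ dist (cn e b c a s) a ≤ D / 2 := by
  obtain ⟨h3, h4⟩ := corner_ba hD h1 h2
  have h5 := dist_mid_left F hB h4
  have h6 := dist_mid_right F hB h4
  have h7 := corner_cm F hD hB h1 h2
  have h8 : dist c (mid e b a) < D := by linarith
  have h9 := dist_gG_left F hB h8 (stp_mem s)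
  have h10 := dist_gG_right F hB h8 (stp_mem s)
  obtain ⟨hs0, hs1⟩ := stp_mem s
  have h11 : 0 ≤ dist c (mid e b a) := dist_nonneg
  rcases le_total (stp s) (1 / 2) with h | h
  · have h12 : dist c (cn e b c a s) ≤ D / 4 := by
      rw [cn, h9]
      nlinarith
    constructor
    · have := dist_triangle b c (cn e b c a s)
      linarith
    · have := dist_triangle (cn e b c a s) c a
      rw [dist_comm (cn e b c a s) c] at this
      linarith
  · have h12 : dist (cn e b c a s) (mid e b a) ≤ D / 4 := by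
      rw [cn, h10]
      nlinarith
    constructor
    · have := dist_triangle b (mid e b a) (cn e b c a s)
      rw [dist_comm (mid e b a)] at this
      linarith
    · have := dist_triangle (cn e b c a s) (mid e b a) a
      linarith

end Corner

/-! ### the polygon with twelve vertices -/

/-- the twelve vertices -/
def v12 (y : GY e D) (s : ℝ) : ZMod 12 → M :=
  ![cn e (pt y 3 (D / 4)) (pt y 0 0) (pt y 0 (D / 4)) s, pt y 0 (D / 4), pt y 0 (3 * D / 4),
    cn e (pt y 0 (3 * D / 4)) (pt y 0 D) (pt y 1 (3 * D / 4)) s, pt y 1 (3 * D / 4),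
      pt y 1 (D / 4),
    cn e (pt y 1 (D / 4)) (pt y 0 0) (pt y 2 (D / 4)) s, pt y 2 (D / 4), pt y 2 (3 * D / 4),
    cn e (pt y 2 (3 * D / 4)) (pt y 0 D) (pt y 3 (3 * D / 4)) s, pt y 3 (3 * D / 4),
      pt y 3 (D / 4)]

theorem forall_z12 {P : ZMod 12 → Prop} (h : ∀ i : Fin 12, P i) : ∀ i, P i := h

section Edges

variable (F : Facts e) (hD : 0 < D) (hB : InjGE e D) (y : GY e D)
include F hD hB

theorem dist_p (j : Fin 4) : dist (pt y j (D / 4)) (pt y 0 0) = D / 4 := by
  rw [dist_comm, pt_zero F, ← pt_zero F y j]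
  rw [dist_pt F hB y j (by linarith) (by linarith)]
  ring

theorem dist_p' (j : Fin 4) : dist (pt y 0 0) (pt y j (D / 4)) = D / 4 := by
  rw [dist_comm]
  exact dist_p F hD hB y j

theorem dist_q (j : Fin 4) : dist (pt y j (3 * D / 4)) (pt y 0 D) = D / 4 := by
  rw [pt_D, ← pt_D y j, dist_pt F hB y j (by linarith) (by linarith)]
  ring

theorem dist_q' (j : Fin 4) : dist (pt y 0 D) (pt y j (3 * D / 4)) = D / 4 := by
  rw [dist_comm]
  exact dist_q F hD hB y j

theorem dist_ab (j : Fin 4) : dist (pt y j (D / 4)) (pt y j (3 * D / 4)) = D / 2 := by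
  rw [dist_pt F hB y j (by linarith) (by linarith)]
  ring

theorem dist_ba (j : Fin 4) : dist (pt y j (3 * D / 4)) (pt y j (D / 4)) = D / 2 := by
  rw [dist_comm]
  exact dist_ab F hD hB y j

/-- all edges are short -/
theorem sd_v12 (s : ℝ) : ∀ i, sd (v12 y s) i ≤ D / 2 := by
  have h0 := dist_cn F hD hB (dist_p F hD hB y 3) (dist_p' F hD hB y 0) s
  have h1 := dist_cn F hD hB (dist_q F hD hB y 0) (dist_q' F hD hB y 1) s
  have h2 := dist_cn F hD hB (dist_p F hD hB y 1) (dist_p' F hD hB y 2) s
  have h3 := dist_cn F hD hB (dist_q F hD hB y 2) (dist_q' F hD hB y 3) s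
  refine forall_z12 fun i => ?_
  fin_cases i
  · exact h0.2
  · exact (dist_ab F hD hB y 0).le
  · exact h1.1
  · exact h1.2
  · exact (dist_ba F hD hB y 1).le
  · exact h2.1
  · exact h2.2
  · exact (dist_ab F hD hB y 2).le
  · exact h3.1
  · exact h3.2
  · exact (dist_ba F hD hB y 3).le
  · exact h0.1

end Edges

end

end Vale.Agent.P231.S3B1
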