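import Vale.Agent.P231.S3B1.Ar
import Vale.Agent.P231.S3B1.Gf
import Vale.Agent.P231.S2N.DF

/-!
# P231, stage 3, block S3-B1: the corner loops, and the polygons with eight vertices
-/

set_option maxSynthPendingDepth 3
set_option linter.unusedSectionVars false
set_option linter.unusedVariables false

open Bundle Manifold Set Filter Module
open scoped ContDiff Manifold Topology ENNReal

namespace Vale.Agent.P231.S3B1

noncomputable section

open Vale.Agent.P234 Vale.Agent.P231 Vale.Agent.P231.H775 Vale.Agent.P231.Fm Vale.Agent.P231.W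
  Vale.Agent.P231.WD3 Vale.Agent.P231.H766 Vale.Agent.P231.S3A Vale.Agent.P231.S3L
  Vale.Agent.P231.S3R Vale.Agent.P231.WR

/-! ### the parameter on one segment -/

/-- a monotone function from `0` to `1`, constant near `0`, `1 / 4`, `3 / 4` and `1` -/
def thc (r : ℝ) : ℝ :=
  H766.stp (12 * r - 2) / 4 + H766.stp (2 * r - 1 / 2) / 2 + H766.stp (12 * r - 9) / 4

theorem thc_contDiff : ContDiff ℝ ∞ thc :=
  (((stp_contDiff.comp ((contDiff_const.mul contDiff_id).sub contDiff_const)).div_const _).add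
    ((stp_contDiff.comp ((contDiff_const.mul contDiff_id).sub contDiff_const)).div_const _)).add
    ((stp_contDiff.comp ((contDiff_const.mul contDiff_id).sub contDiff_const)).div_const _)

theorem thc_mono : Monotone thc := by
  intro x y h
  have h1 := stp_mono (show 12 * x - 2 ≤ 12 * y - 2 by linarith)
  have h2 := stp_mono (show 2 * x - 1 / 2 ≤ 2 * y - 1 / 2 by linarith)
  have h3 := stp_mono (show 12 * x - 9 ≤ 12 * y - 9 by linarith)
  rw [thc, thc]
  linarith

theorem thc_of_le {r : ℝ} (h : r ≤ 1 / 6) : thc r = 0 := by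
  rw [thc, stp_of_le (x := 12 * r - 2) (by linarith), stp_of_le (x := 2 * r - 1 / 2) (by linarith),
    stp_of_le (x := 12 * r - 9) (by linarith)]
  norm_num

theorem thc_of_ge {r : ℝ} (h : 5 / 6 ≤ r) : thc r = 1 := by
  rw [thc, stp_of_ge (x := 12 * r - 2) (by linarith), stp_of_ge (x := 2 * r - 1 / 2) (by linarith),
    stp_of_ge (x := 12 * r - 9) (by linarith)]
  norm_num

theorem thc_quarter : thc (1 / 4) = 1 / 4 := by
  rw [thc, stp_of_ge (x := 12 * (1 / 4) - 2) (by norm_num),
    stp_of_le (x := 2 * (1 / 4) - 1 / 2) (by norm_num),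
    stp_of_le (x := 12 * (1 / 4) - 9) (by norm_num)]
  norm_num

theorem thc_three : thc (3 / 4) = 3 / 4 := by
  rw [thc, stp_of_ge (x := 12 * (3 / 4) - 2) (by norm_num),
    stp_of_ge (x := 2 * (3 / 4) - 1 / 2) (by norm_num),
    stp_of_le (x := 12 * (3 / 4) - 9) (by norm_num)]
  norm_num

theorem thc_mem (r : ℝ) : thc r ∈ Icc (0 : ℝ) 1 := by
  constructor
  · rcases le_total r (1 / 6) with h | h
    · rw [thc_of_le h]
    · rw [← thc_of_le (le_refl (1 / 6 : ℝ))]
      exact thc_mono h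
  · rcases le_total r (5 / 6) with h | h
    · rw [← thc_of_ge (le_refl (5 / 6 : ℝ))]
      exact thc_mono h
    · rw [thc_of_ge h]

theorem thc_lip {x y : ℝ} (h : x ≤ y) : thc y - thc x ≤ 7 * lstp * (y - x) := by
  have k : ∀ a b : ℝ, 0 < a → H766.stp (a * y - b) - H766.stp (a * x - b) ≤ lstp * (a * (y - x)) := by
    intro a b ha
    have h1 := dist_stp (a * y - b) (a * x - b)
    have h2 : |a * y - b - (a * x - b)| = a * (y - x) := by
      rw [show a * y - b - (a * x - b) = a * (y - x) by ring, abs_of_nonneg]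
      exact mul_nonneg ha.le (by linarith)
    rw [h2] at h1
    exact (le_abs_self _).trans h1
  have h1 := k 12 2 (by norm_num)
  have h2 := k 2 (1 / 2) (by norm_num)
  have h3 := k 12 9 (by norm_num)
  rw [thc, thc]
  nlinarith

variable {E : Type*} [NormedAddCommGroup E] [NormedSpace ℝ E] [FiniteDimensional ℝ E]
  {M : Type*} [MetricSpace M] [ChartedSpace E M] [IsManifold 𝓘(ℝ, E) ∞ M]
  [RiemannianBundle (fun x : M => TangentSpace 𝓘(ℝ, E) x)]
  [IsContMDiffRiemannianBundle 𝓘(ℝ, E) ∞ E (fun x : M => TangentSpace 𝓘(ℝ, E) x)]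
  {e : ∀ x : M, TangentSpace 𝓘(ℝ, E) x → M}
  [CompactSpace M] [ConnectedSpace M] [IsRiemannianManifold 𝓘(ℝ, E) M]
  {D : ℝ}

/-- the direction at the beginning of the segment `j` -/
def upo (F : Facts e) (y : GY e D) (j : ZMod 4) : UT E M :=
  if j.val % 2 = 0 then y.u j else ng (phi F (y.u j, D))

theorem map_upo (F : Facts e) (j : ZMod 4) : (dGY e D).Map (dUT E M) fun y => upo F y j := by
  intro V _ _ _ u x hu
  by_cases h : j.val % 2 = 0
  · have h1 : (fun y : GY e D => upo F y j) = fun y => y.u j := funext fun y => if_pos h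
    rw [h1]
    exact hu j
  · have h1 : (fun y : GY e D => upo F y j) = fun y => ng (phi F (y.u j, D)) :=
      funext fun y => if_neg h
    rw [h1]
    exact map_ng (map_phi F (u := fun s => ((u s).u j, D)) ⟨hu j, Sm.of_contDiff contDiff_const _⟩)

section Seg

variable (F : Facts e) (hD : 0 < D) (hB : InjGE e D) (hdiam : ∀ p q : M, dist p q ≤ D)
  (y : GY e D)
include hD hB hdiam

theorem gm_rev (j : Fin 4) (t : ℝ) : gm e (ng (phi F (y.u j, D)), t) = pt y j (D - t) := by
  rw [gm_ng, gm_phi, ← sub_eq_add_neg]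
  rfl

/-- the segments fit together -/
theorem seg_fit (j : ZMod 4) : gm e (upo F y j, D) = foot (upo F y (j + 1)) := by
  have h0 : ∀ j, foot (y.u j) = foot (y.u 0) := y.ft
  have h1 : ∀ j, foot (ng (phi F (y.u j, D))) = bar e D (y.u 0) := fun j => y.br j
  have h2 : ∀ j, gm e (y.u j, D) = bar e D (y.u 0) := fun j => y.br j
  have h3 : ∀ j, gm e (ng (phi F (y.u j, D)), D) = foot (y.u 0) := fun j => by
    rw [gm_rev F hD hB hdiam, sub_self, pt_zero F]
  revert j
  intro j
  fin_cases j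
  · exact (h2 0).trans (h1 1).symm
  · exact (h3 1).trans (h0 2).symm
  · exact (h2 2).trans (h1 3).symm
  · exact (h3 3).trans (h0 0).symm

end Seg

/-! ### the corner loops -/

/-- one segment -/
def sgm (F : Facts e) (y : GY e D) (i : ℤ) (x : ℝ) : M := gm e (upo F y (i : ZMod 4), D * thc x)

/-- the corner loop -/
def cl (F : Facts e) (y : GY e D) : ℝ → M := cel 4 (sgm F y)

section Loops

variable (F : Facts e) (hD : 0 < D) (hB : InjGE e D) (hdiam : ∀ p q : M, dist p q ≤ D)

theorem sgm_zero (y : GY e D) (i : ℤ) {x : ℝ} (hx : x ≤ 1 / 6) :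
    sgm F y i x = foot (upo F y (i : ZMod 4)) := by
  rw [sgm, thc_of_le hx, mul_zero, gm_zero F]

include hD hB hdiam in
theorem sgm_one (y : GY e D) (i : ℤ) {x : ℝ} (hx : 5 / 6 ≤ x) :
    sgm F y i x = foot (upo F y ((i + 1 : ℤ) : ZMod 4)) := by
  rw [sgm, thc_of_ge hx, mul_one, seg_fit F hD hB hdiam]
  push_cast
  rfl

include hD hB hdiam in
theorem sgm_fit (y : GY e D) (i : ℤ) : sgm F y i 1 = sgm F y (i + 1) 0 :=
  (sgm_one F hD hB hdiam y i (by norm_num)).trans (sgm_zero F y (i + 1) (by norm_num)).symm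

include hD hB hdiam in
/-- the corner loop on the segment `i` -/
theorem cl_eq (y : GY e D) {t : ℝ} {i : ℤ} (h0 : (i : ℝ) ≤ 4 * t) (h1 : 4 * t ≤ (i : ℝ) + 1) :
    cl F y t = gm e (upo F y (i : ZMod 4), D * thc (4 * t - i)) := by
  have h2 := cel_eq (m := 4) (sgm_fit F hD hB hdiam y) (t := t) (i := i) (by exact_mod_cast h0)
    (by exact_mod_cast h1)
  exact_mod_cast h2

include hD hB in
theorem dist_sgm (y : GY e D) (i : ℤ) {x z : ℝ} (h : x ≤ z) :
    dist (sgm F y i x) (sgm F y i z) = D * (thc z - thc x) := by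
  have h1 := thc_mem x
  have h2 := thc_mem z
  have h3 := mul_le_mul_of_nonneg_left (thc_mono h) hD.le
  have h4 := mul_nonneg hD.le h1.1
  have h5 := mul_le_mul_of_nonneg_left h2.2 hD.le
  rw [sgm, sgm, dist_gm_gm' F hB _ h3 (by linarith)]
  ring

include hD hB in
theorem var_sgm (y : GY e D) (i : ℤ) : eVariationOn (sgm F y i) (Icc 0 1) ≤ ENNReal.ofReal D := by
  have h1 : LipschitzOnWith 1 (fun s => gm e (upo F y (i : ZMod 4), s)) (Icc 0 D) := by
    refine LipschitzOnWith.of_dist_le_mul fun s hs t ht => ?_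
    rw [NNReal.coe_one, one_mul, Real.dist_eq]
    rcases le_total s t with h | h
    · rw [dist_gm_gm' F hB _ h (by linarith [hs.1, ht.2]), abs_sub_comm, abs_of_nonneg]
      linarith
    · rw [dist_comm, dist_gm_gm' F hB _ h (by linarith [hs.2, ht.1]), abs_of_nonneg]
      linarith
  have h2 := h1.comp_eVariationOn_le (g := fun x : ℝ => D * thc x) (s := Icc (0 : ℝ) 1)
    (fun x _ => ⟨mul_nonneg hD.le (thc_mem x).1, by
      have := mul_le_mul_of_nonneg_left (thc_mem x).2 hD.le
      linarith⟩)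
  have h3 : Monotone fun x : ℝ => D * thc x := fun x z h =>
    mul_le_mul_of_nonneg_left (thc_mono h) hD.le
  have h4 := (h3.monotoneOn (Icc (0 : ℝ) 1)).eVariationOn_eq (a := 0) (b := 1)
    ⟨le_rfl, zero_le_one⟩ ⟨zero_le_one, le_rfl⟩ |>.le
  simp only [inter_self, thc_of_ge (show (5 : ℝ) / 6 ≤ 1 by norm_num),
    thc_of_le (show (0 : ℝ) ≤ 1 / 6 by norm_num), mul_one, mul_zero, sub_zero] at h4
  refine (h2.trans (mul_le_mul_right h4 _)).trans ?_
  rw [ENNReal.coe_one, one_mul]

/-- the Lipschitz constant of the corner loops -/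
def Scl (D : ℝ) : ℝ := 4 * (D * (7 * lstp))

include hD in
theorem Scl_nonneg : 0 ≤ Scl D :=
  mul_nonneg (by norm_num) (mul_nonneg hD.le (mul_nonneg (by norm_num) lstp.coe_nonneg))

include hD hB hdiam in
/-- the corner loops form a family of loops of variation at most `4 D` -/
theorem lf_cl : LF (dGY e D) (dM E M) (Scl D) (fun _ => ENNReal.ofReal (4 * D)) (cl F) where
  smooth := by
    refine map_cel (m := 4) (DX := dGY e D) (K := sgm F)
      (v := fun y i => foot (upo F y (i : ZMod 4))) ?_ ?_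
      (fun y i ξ _ h1 => sgm_zero F y i h1) (fun y i ξ h1 _ => sgm_one F hD hB hdiam y i h1)
    · intro i V _ _ _ u ξ x hu hξ _
      refine map_gm F (u := fun s => (upo F (u s) (i : ZMod 4), D * thc (ξ s)))
        ⟨map_upo F _ hu, ?_⟩
      filter_upwards [hξ] with s hs
      exact contDiffAt_const.mul (thc_contDiff.contDiffAt.comp s hs)
    · intro i V _ _ _ u x hu
      exact map_foot (map_upo F _ hu)
  per y t := by
    refine cel_per (m := 4) _ (fun i x => ?_) t
    rw [sgm, sgm]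
    have h1 : ((i + (4 : ℕ) : ℤ) : ZMod 4) = (i : ZMod 4) := by
      push_cast
      have h2 : ((4 : ℕ) : ZMod 4) = 0 := ZMod.natCast_self 4
      have h3 : (4 : ZMod 4) = 0 := h2
      rw [h3, add_zero]
    rw [h1]
  lip y s t := by
    have h1 := cel_lip (m := 4) (sgm_fit F hD hB hdiam y) (L := D * (7 * lstp))
      (fun i x _ z _ hxz => by
        rw [dist_sgm F hD hB y i hxz]
        have := mul_le_mul_of_nonneg_left (thc_lip hxz) hD.le
        linarith) s t
    exact_mod_cast h1
  var y := by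
    refine (cel_var (m := 4) (sgm_fit F hD hB hdiam y) (v := fun _ => ENNReal.ofReal D)
      fun n _ => var_sgm F hD hB y n).trans (le_of_eq ?_)
    rw [Finset.sum_const, Finset.card_range, nsmul_eq_mul, ENNReal.ofReal_mul (by norm_num)]
    norm_num

/-! ### the polygons -/

/-- the eight vertices -/
def v8 (F : Facts e) (y : GY e D) : ZMod 8 → M :=
  ![gm e (upo F y 0, D / 4), gm e (upo F y 0, 3 * D / 4), gm e (upo F y 1, D / 4),
    gm e (upo F y 1, 3 * D / 4), gm e (upo F y 2, D / 4), gm e (upo F y 2, 3 * D / 4),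
    gm e (upo F y 3, D / 4), gm e (upo F y 3, 3 * D / 4)]

include hD hB hdiam in
theorem cl_quarter (y : GY e D) (i : ℤ) {t : ℝ} (ht : 4 * t = i + 1 / 4) :
    cl F y t = gm e (upo F y (i : ZMod 4), D / 4) := by
  rw [cl_eq F hD hB hdiam y (i := i) (by linarith) (by linarith), ht,
    show (i : ℝ) + 1 / 4 - i = 1 / 4 by ring, thc_quarter]
  congr 2
  ring

include hD hB hdiam in
theorem cl_three (y : GY e D) (i : ℤ) {t : ℝ} (ht : 4 * t = i + 3 / 4) :
    cl F y t = gm e (upo F y (i : ZMod 4), 3 * D / 4) := by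
  rw [cl_eq F hD hB hdiam y (i := i) (by linarith) (by linarith), ht,
    show (i : ℝ) + 3 / 4 - i = 3 / 4 by ring, thc_three]
  congr 2
  ring

include hD hB hdiam in
theorem vx_cl (y : GY e D) : vx (cl F) 8 (1 / 16) y = v8 F y := by
  funext k
  have key : ∀ (k : ZMod 8) (n : ℕ), k.val = n → vx (cl F) 8 (1 / 16) y k =
      cl F y (1 / 16 + n / 8) := by
    intro k n h
    rw [vx, h]
    push_cast
    rfl
  fin_cases k
  · refine (key 0 0 rfl).trans ?_
    have h := cl_quarter F hD hB hdiam y 0 (t := 1 / 16 + ((0 : ℕ) : ℝ) / 8) (by push_cast; ring)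
    exact_mod_cast h
  · refine (key 1 1 rfl).trans ?_
    have h := cl_three F hD hB hdiam y 0 (t := 1 / 16 + ((1 : ℕ) : ℝ) / 8) (by push_cast; ring)
    exact_mod_cast h
  · refine (key 2 2 rfl).trans ?_
    have h := cl_quarter F hD hB hdiam y 1 (t := 1 / 16 + ((2 : ℕ) : ℝ) / 8) (by push_cast; ring)
    exact_mod_cast h
  · refine (key 3 3 rfl).trans ?_
    have h := cl_three F hD hB hdiam y 1 (t := 1 / 16 + ((3 : ℕ) : ℝ) / 8) (by push_cast; ring)
    exact_mod_cast h
  · refine (key 4 4 rfl).trans ?_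
    have h := cl_quarter F hD hB hdiam y 2 (t := 1 / 16 + ((4 : ℕ) : ℝ) / 8) (by push_cast; ring)
    exact_mod_cast h
  · refine (key 5 5 rfl).trans ?_
    have h := cl_three F hD hB hdiam y 2 (t := 1 / 16 + ((5 : ℕ) : ℝ) / 8) (by push_cast; ring)
    exact_mod_cast h
  · refine (key 6 6 rfl).trans ?_
    have h := cl_quarter F hD hB hdiam y 3 (t := 1 / 16 + ((6 : ℕ) : ℝ) / 8) (by push_cast; ring)
    exact_mod_cast h
  · refine (key 7 7 rfl).trans ?_
    have h := cl_three F hD hB hdiam y 3 (t := 1 / 16 + ((7 : ℕ) : ℝ) / 8) (by push_cast; ring)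
    exact_mod_cast h

end Loops

end

end Vale.Agent.P231.S3B1
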