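import Vale.Agent.P231.S3B1.Cell

/-!
# P231, stage 3, block S3-B1: families of loops (without a circle action) and their homotopies
-/

set_option linter.unusedSectionVars false
set_option linter.unusedVariables false

open Set Filter Topology Module
open scoped ContDiff ENNReal

namespace Vale.Agent.P231.S3B1

open Vale.Agent.P231.Fm Vale.Agent.P231.H766 Vale.Agent.P231.S3A Vale.Agent.P231.S3L

variable {Y : Type*} {DY : Dif Y} {Z : Type*} {DZ : Dif Z} {M : Type*} [MetricSpace M] {DM : Dif M}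

/-- a smooth family of closed curves of period one -/
structure LF (DY : Dif Y) (DM : Dif M) (S : ℝ) (V : Y → ℝ≥0∞) (c : Y → ℝ → M) : Prop where
  smooth : (DY.prod (Dif.lin ℝ)).Map DM fun p => c p.1 p.2
  per : ∀ y t, c y (t + 1) = c y t
  lip : ∀ y s t, dist (c y s) (c y t) ≤ S * |s - t|
  var : ∀ y, eVariationOn (c y) (Icc 0 1) ≤ V y

/-- a smooth homotopy of families of closed curves -/
def LHt (DY : Dif Y) (DM : Dif M) (S : ℝ) (V : Y → ℝ≥0∞) (c c' : Y → ℝ → M) : Prop :=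
  ∃ H : Y × ℝ → ℝ → M, LF (DY.prod (Dif.lin ℝ)) DM S (fun p => V p.1) H ∧
    (∀ y s t, s ≤ 0 → H (y, s) t = c y t) ∧ ∀ y s t, 1 ≤ s → H (y, s) t = c' y t

namespace LF

variable {S : ℝ} {V : Y → ℝ≥0∞} {c : Y → ℝ → M}

theorem mono (h : LF DY DM S V c) {S' : ℝ} {V' : Y → ℝ≥0∞} (hS : S ≤ S') (hV : ∀ y, V y ≤ V' y) :
    LF DY DM S' V' c :=
  ⟨h.smooth, h.per, fun y s t => (h.lip y s t).trans (mul_le_mul_of_nonneg_right hS (abs_nonneg _)),
    fun y => (h.var y).trans (hV y)⟩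

/-- pull back by a smooth map -/
theorem comp (h : LF DY DM S V c) {f : Z → Y} (hf : DZ.Map DY f) :
    LF DZ DM S (fun z => V (f z)) fun z => c (f z) where
  smooth := fun {E} _ _ _ {u x} hu => h.smooth (u := fun y => (f (u y).1, (u y).2))
    ⟨hf hu.1, hu.2⟩
  per z := h.per _
  lip z := h.lip _
  var z := h.var _

/-- the map to the universal family -/
def toLL (h : LF DY DM S V c) (hpt : ∀ y, DY.At (fun _ : ℝ => y) 0) {S' : NNReal} {W : ℝ≥0∞}
    {δ : ℝ} {J : ℕ} (hS : S ≤ S') (hV : ∀ y, V y ≤ W) {a : Y → Fin J → ℂ}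
    (ha : ∀ y, ∃ j, δ ≤ ‖a y j‖) (y : Y) : LL DM S' W δ J where
  c := c y
  a := a y
  sm := fun {E} _ _ _ {u x} hu => h.smooth (u := fun s => (y, u s))
    ⟨DY.comp (u := fun _ : ℝ => y) (g := fun _ : E => (0 : ℝ)) (hpt y)
      (Sm.of_contDiff contDiff_const x), hu⟩
  per := h.per y
  lip := LipschitzWith.of_dist_le_mul fun s t => by
    rw [Real.dist_eq]
    exact (h.lip y s t).trans (mul_le_mul_of_nonneg_right hS (abs_nonneg _))
  var := (h.var y).trans (hV y)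
  bound := ha y

theorem toLL_c (h : LF DY DM S V c) (hpt : ∀ y, DY.At (fun _ : ℝ => y) 0) {S' : NNReal} {W : ℝ≥0∞}
    {δ : ℝ} {J : ℕ} (hS : S ≤ S') (hV : ∀ y, V y ≤ W) {a : Y → Fin J → ℂ}
    (ha : ∀ y, ∃ j, δ ≤ ‖a y j‖) (y : Y) (t : ℝ) : (h.toLL hpt hS hV ha y).c t = c y t := rfl

theorem toLL_a (h : LF DY DM S V c) (hpt : ∀ y, DY.At (fun _ : ℝ => y) 0) {S' : NNReal} {W : ℝ≥0∞}
    {δ : ℝ} {J : ℕ} (hS : S ≤ S') (hV : ∀ y, V y ≤ W) {a : Y → Fin J → ℂ}
    (ha : ∀ y, ∃ j, δ ≤ ‖a y j‖) (y : Y) : (h.toLL hpt hS hV ha y).a = a y := rfl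

theorem map_toLL (h : LF DY DM S V c) (hpt : ∀ y, DY.At (fun _ : ℝ => y) 0) {S' : NNReal}
    {W : ℝ≥0∞} {δ : ℝ} {J : ℕ} (hS : S ≤ S') (hV : ∀ y, V y ≤ W) {a : Y → Fin J → ℂ}
    (ha : ∀ y, ∃ j, δ ≤ ‖a y j‖) (ham : DY.Map (Dif.lin (Fin J → ℂ)) a) :
    DY.Map (dLL DM S' W δ J) (h.toLL hpt hS hV ha) :=
  map_free (c := c) (a := a) h.smooth ham (fun _ _ => rfl) fun _ => rfl

end LF

namespace LHt

variable {S : ℝ} {V : Y → ℝ≥0∞} {c c' c'' : Y → ℝ → M}

theorem refl (h : LF DY DM S V c) : LHt DY DM S V c c :=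
  ⟨fun p => c p.1, h.comp Dif.map_fst, fun _ _ _ _ => rfl, fun _ _ _ _ => rfl⟩

theorem map_at (s : ℝ) : DY.Map (DY.prod (Dif.lin ℝ)) fun y => (y, s) :=
  fun {E} _ _ _ {u x} hu => ⟨hu, Sm.of_contDiff contDiff_const x⟩

theorem left (h : LHt DY DM S V c c') : LF DY DM S V c := by
  obtain ⟨H, hH, h0, h1⟩ := h
  have h2 := hH.comp (f := fun y => (y, (0 : ℝ))) (map_at 0)
  have h3 : (fun y => H (y, (0 : ℝ))) = c := funext fun y => funext fun t => h0 y 0 t le_rfl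
  rw [h3] at h2
  exact h2

theorem right (h : LHt DY DM S V c c') : LF DY DM S V c' := by
  obtain ⟨H, hH, h0, h1⟩ := h
  have h2 := hH.comp (f := fun y => (y, (1 : ℝ))) (map_at 1)
  have h3 : (fun y => H (y, (1 : ℝ))) = c' := funext fun y => funext fun t => h1 y 1 t le_rfl
  rw [h3] at h2
  exact h2

theorem mono (h : LHt DY DM S V c c') {S' : ℝ} {V' : Y → ℝ≥0∞} (hS : S ≤ S')
    (hV : ∀ y, V y ≤ V' y) : LHt DY DM S' V' c c' := by
  obtain ⟨H, hH, h0, h1⟩ := h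
  exact ⟨H, hH.mono hS fun p => hV p.1, h0, h1⟩

theorem comp (h : LHt DY DM S V c c') {f : Z → Y} (hf : DZ.Map DY f) :
    LHt DZ DM S (fun z => V (f z)) (fun z => c (f z)) fun z => c' (f z) := by
  obtain ⟨H, hH, h0, h1⟩ := h
  refine ⟨fun p => H (f p.1, p.2), ?_, fun z => h0 (f z), fun z => h1 (f z)⟩
  exact hH.comp (f := fun p : Z × ℝ => (f p.1, p.2)) fun {E} _ _ _ {u x} hu => ⟨hf hu.1, hu.2⟩

theorem symm (h : LHt DY DM S V c c') : LHt DY DM S V c' c := by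
  obtain ⟨H, hH, h0, h1⟩ := h
  refine ⟨fun p => H (p.1, 1 - p.2), ?_, fun y s t hs => h1 y _ t (by linarith),
    fun y s t hs => h0 y _ t (by linarith)⟩
  exact hH.comp (f := fun p : Y × ℝ => (p.1, 1 - p.2)) fun {E} _ _ _ {u x} hu =>
    ⟨hu.1, (Sm.of_contDiff (g := fun s : ℝ => 1 - s) (contDiff_const.sub contDiff_id) _).comp hu.2⟩

theorem trans (h : LHt DY DM S V c c') (h' : LHt DY DM S V c' c'') : LHt DY DM S V c c'' := by
  obtain ⟨H, hH, h0, h1⟩ := h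
  obtain ⟨H', hH', h0', h1'⟩ := h'
  classical
  let K : Y × ℝ → ℝ → M := fun p => if p.2 ≤ 1 / 2 then H (p.1, 4 * p.2) else H' (p.1, 4 * p.2 - 3)
  have k1 : ∀ p : Y × ℝ, p.2 ≤ 3 / 4 → K p = H (p.1, 4 * p.2) := by
    intro p hp
    by_cases h : p.2 ≤ 1 / 2
    · exact if_pos h
    · have h2 : K p = H' (p.1, 4 * p.2 - 3) := if_neg h
      rw [h2]
      funext t
      rw [h0' p.1 _ t (by linarith), h1 p.1 _ t (by push Not at h; linarith)]
  have k2 : ∀ p : Y × ℝ, 1 / 4 ≤ p.2 → K p = H' (p.1, 4 * p.2 - 3) := by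
    intro p hp
    by_cases h : p.2 ≤ 1 / 2
    · have h2 : K p = H (p.1, 4 * p.2) := if_pos h
      rw [h2]
      funext t
      rw [h0' p.1 _ t (by linarith), h1 p.1 _ t (by linarith)]
    · exact if_neg h
  have m1 : (DY.prod (Dif.lin ℝ)).Map (DY.prod (Dif.lin ℝ)) fun p => (p.1, 4 * p.2) :=
    fun {E} _ _ _ {u x} hu => ⟨hu.1, (Sm.of_contDiff (g := fun s : ℝ => 4 * s)
      (contDiff_const.mul contDiff_id) _).comp hu.2⟩
  have m2 : (DY.prod (Dif.lin ℝ)).Map (DY.prod (Dif.lin ℝ)) fun p => (p.1, 4 * p.2 - 3) :=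
    fun {E} _ _ _ {u x} hu => ⟨hu.1, (Sm.of_contDiff (g := fun s : ℝ => 4 * s - 3)
      ((contDiff_const.mul contDiff_id).sub contDiff_const) _).comp hu.2⟩
  have g1 := hH.comp m1
  have g2 := hH'.comp m2
  refine ⟨K, ⟨?_, ?_, ?_, ?_⟩, ?_, ?_⟩
  · intro E _ _ _ u x hu
    have hc : ContinuousAt (fun y => (u y).1.2) x := (hu.1.2 : Sm _ _).continuousAt
    rcases lt_or_ge (u x).1.2 (1 / 2) with h2 | h2
    · refine DM.congr (g1.smooth hu) ?_
      have h3 : ∀ᶠ y in 𝓝 x, (u y).1.2 < 1 / 2 := hc.eventually_lt_const h2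
      filter_upwards [h3] with y hy
      exact congrFun (k1 (u y).1 (by linarith)).symm _
    · refine DM.congr (g2.smooth hu) ?_
      have h3 : ∀ᶠ y in 𝓝 x, 1 / 4 < (u y).1.2 := hc.eventually_const_lt (by linarith)
      filter_upwards [h3] with y hy
      exact congrFun (k2 (u y).1 hy.le).symm _
  · intro p t
    rcases le_total p.2 (1 / 2) with h2 | h2
    · rw [k1 p (by linarith)]
      exact g1.per p t
    · rw [k2 p (by linarith)]
      exact g2.per p t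
  · intro p s t
    rcases le_total p.2 (1 / 2) with h2 | h2
    · rw [k1 p (by linarith)]
      exact g1.lip p s t
    · rw [k2 p (by linarith)]
      exact g2.lip p s t
  · intro p
    rcases le_total p.2 (1 / 2) with h2 | h2
    · rw [k1 p (by linarith)]
      exact g1.var p
    · rw [k2 p (by linarith)]
      exact g2.var p
  · intro y s t hs
    rw [k1 (y, s) (by simp only; linarith)]
    exact h0 y _ t (by simp only; linarith)
  · intro y s t hs
    rw [k2 (y, s) (by simp only; linarith)]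
    exact h1' y _ t (by simp only; linarith)

end LHt

end Vale.Agent.P231.S3B1
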