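import Vale.Agent.P231.S3B1.LHt

/-!
# P231, stage 3, block S3-B1: replacing the arcs of a family of loops by minimal geodesics
-/

set_option linter.unusedSectionVars false
set_option linter.unusedVariables false

open Set Filter Topology Module
open scoped ContDiff ENNReal

namespace Vale.Agent.P231.S3B1

open Vale.Agent.P231.Fm Vale.Agent.P231.H766 Vale.Agent.P231.S3A Vale.Agent.P231.S3L

variable {Y : Type*} {DY : Dif Y} {M : Type*} [MetricSpace M] {DM : Dif M}

/-! ### reparametrisation -/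

section Rep

variable {S : ℝ} {V : Y → ℝ≥0∞} {c : Y → ℝ → M} {β : ℝ → ℝ} {L : ℝ}

theorem LF.rep (h : LF DY DM S V c) (hS : 0 ≤ S) (hβ : ContDiff ℝ ∞ β) (hm : Monotone β)
    (hp : ∀ t, β (t + 1) = β t + 1) (hL : ∀ s t, |β s - β t| ≤ L * |s - t|) (h1 : 1 ≤ L) :
    LHt DY DM (S * L) V c fun y t => c y (β t) := by
  refine ⟨fun p t => c p.1 ((1 - stp p.2) * t + stp p.2 * β t), ⟨?_, ?_, ?_, ?_⟩, ?_, ?_⟩
  · intro E _ _ _ u x hu
    have h2 : Sm (fun y => (u y).1.2) x := hu.1.2
    have h3 : Sm (fun y => (u y).2) x := hu.2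
    refine h.smooth (u := fun y => ((u y).1.1, (1 - stp (u y).1.2) * (u y).2 +
      stp (u y).1.2 * β (u y).2)) ⟨hu.1.1, ?_⟩
    filter_upwards [h2, h3] with y hy2 hy3
    have h4 : ContDiffAt ℝ ∞ (fun y => stp (u y).1.2) y := stp_contDiff.contDiffAt.comp y hy2
    have h5 : ContDiffAt ℝ ∞ (fun y => β (u y).2) y := hβ.contDiffAt.comp y hy3
    exact ((contDiffAt_const.sub h4).mul hy3).add (h4.mul h5)
  · intro p t
    have h2 : (1 - stp p.2) * (t + 1) + stp p.2 * β (t + 1) =
        (1 - stp p.2) * t + stp p.2 * β t + 1 := by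
      rw [hp]
      ring
    change c p.1 _ = c p.1 _
    rw [h2, h.per]
  · intro p s t
    obtain ⟨h2, h3⟩ := stp_mem p.2
    refine (h.lip _ _ _).trans ?_
    have h4 : |(1 - stp p.2) * s + stp p.2 * β s - ((1 - stp p.2) * t + stp p.2 * β t)| ≤
        L * |s - t| := by
      calc _ = |(1 - stp p.2) * (s - t) + stp p.2 * (β s - β t)| := by congr 1; ring
        _ ≤ |(1 - stp p.2) * (s - t)| + |stp p.2 * (β s - β t)| := abs_add_le _ _
        _ = (1 - stp p.2) * |s - t| + stp p.2 * |β s - β t| := by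
          rw [abs_mul, abs_mul, abs_of_nonneg (by linarith : 0 ≤ 1 - stp p.2), abs_of_nonneg h2]
        _ ≤ (1 - stp p.2) * (L * |s - t|) + stp p.2 * (L * |s - t|) := by
          refine add_le_add (mul_le_mul_of_nonneg_left ?_ (by linarith))
            (mul_le_mul_of_nonneg_left (hL s t) h2)
          calc |s - t| = 1 * |s - t| := (one_mul _).symm
            _ ≤ L * |s - t| := mul_le_mul_of_nonneg_right h1 (abs_nonneg _)
        _ = _ := by ring
    calc _ ≤ S * (L * |s - t|) := mul_le_mul_of_nonneg_left h4 hS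
      _ = _ := by ring
  · intro p
    obtain ⟨h2, h3⟩ := stp_mem p.2
    have h4 := var_reparam (M := M) (h.per p.1) (m := fun t => (1 - stp p.2) * t + stp p.2 * β t)
      (a := 0) (fun s _ t _ hst => add_le_add
        (mul_le_mul_of_nonneg_left hst (by linarith)) (mul_le_mul_of_nonneg_left (hm hst) h2))
      (by
        have := hp 0
        change (1 - stp p.2) * (0 + 1) + stp p.2 * β (0 + 1) =
          (1 - stp p.2) * 0 + stp p.2 * β 0 + 1
        rw [this]
        ring)
    rw [zero_add] at h4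
    exact h4.trans (h.var p.1)
  · intro y s t hs
    change c y ((1 - stp s) * t + stp s * β t) = c y t
    rw [stp_of_le (by linarith), sub_zero, one_mul, zero_mul, add_zero]
  · intro y s t hs
    change c y ((1 - stp s) * t + stp s * β t) = c y (β t)
    rw [stp_of_ge (by linarith), sub_self, zero_mul, one_mul, zero_add]

end Rep

/-! ### the staircase -/

theorem lstp_one : (1 : ℝ) ≤ lstp := by
  have h := dist_stp (1 : ℝ) 0
  rw [stp_of_ge (by norm_num), stp_of_le (by norm_num)] at h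
  norm_num at h
  exact h

theorem bet_contDiff : ContDiff ℝ ∞ bet := by
  have h1 : bet = fun t => dsp t + t := by
    funext t
    rw [dsp]
    ring
  rw [h1]
  exact dsp_contDiff.add contDiff_id

theorem bet_cel : bet = cel 1 (fun i x => (i : ℝ) + stp (2 * x - 1)) := by
  funext t
  rw [bet, cel]
  simp

theorem bet_lip (s t : ℝ) : |bet s - bet t| ≤ 2 * lstp * |s - t| := by
  rw [← Real.dist_eq, bet_cel]
  have h := cel_lip (m := 1) (K := fun i x => (i : ℝ) + stp (2 * x - 1)) (L := 2 * lstp)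
    (fun i => by
      rw [stp_of_ge (by norm_num), stp_of_le (x := 2 * 0 - 1) (by norm_num)]
      push_cast
      ring)
    (fun i x _ y _ hxy => by
      rw [Real.dist_eq, add_sub_add_left_eq_sub]
      refine (dist_stp _ _).trans ?_
      have h1 : |2 * x - 1 - (2 * y - 1)| = 2 * (y - x) := by
        rw [abs_sub_comm, show 2 * y - 1 - (2 * x - 1) = 2 * (y - x) by ring, abs_of_nonneg]
        linarith
      rw [h1]
      exact le_of_eq (by ring)) s t
  simpa using h

/-! ### the partial replacement on one arc -/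

variable {D : ℝ} (g : Geo DM D)

/-- the arc `a`, with the piece over `[0, σ]` replaced by the minimal geodesic -/
noncomputable def Nr (a : ℝ → M) (σ x : ℝ) : M :=
  if x ≤ 1 / 2 then g.G (a 0) (a σ) (stp (2 * x)) else a (σ + (1 - σ) * stp (2 * x - 1))

section Nr

variable {a : ℝ → M} {σ : ℝ}

theorem Nr_left (h : dist (a 0) (a σ) < D) {x : ℝ} (hx : x ≤ 2 / 3) :
    Nr g a σ x = g.G (a 0) (a σ) (stp (2 * x)) := by
  rw [Nr]
  split_ifs with h1
  · rfl
  · rw [stp_of_ge (x := 2 * x) (by linarith), g.one _ _ h, stp_of_le (x := 2 * x - 1) (by linarith),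
      mul_zero, add_zero]

theorem Nr_right (h : dist (a 0) (a σ) < D) {x : ℝ} (hx : 1 / 3 ≤ x) :
    Nr g a σ x = a (σ + (1 - σ) * stp (2 * x - 1)) := by
  rw [Nr]
  split_ifs with h1
  · rw [stp_of_ge (x := 2 * x) (by linarith), g.one _ _ h, stp_of_le (x := 2 * x - 1) (by linarith),
      mul_zero, add_zero]
  · rfl

theorem Nr_lip (h0 : 0 ≤ σ) (h1 : σ ≤ 1) (h : dist (a 0) (a σ) < D) {L : ℝ} (hL : 0 ≤ L)
    (ha : ∀ x ∈ Icc (0 : ℝ) 1, ∀ y ∈ Icc (0 : ℝ) 1, dist (a x) (a y) ≤ L * |x - y|)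
    {x y : ℝ} (hx : x ∈ Icc (0 : ℝ) 1) (hy : y ∈ Icc (0 : ℝ) 1) (hxy : x ≤ y) :
    dist (Nr g a σ x) (Nr g a σ y) ≤ 2 * lstp * L * (y - x) := by
  have hl := lstp.coe_nonneg
  have k1 : ∀ x y : ℝ, x ≤ y → y ≤ 1 / 2 → dist (Nr g a σ x) (Nr g a σ y) ≤
      2 * lstp * L * (y - x) := by
    intro x y hxy hy
    rw [Nr_left g h (by linarith), Nr_left g h (by linarith)]
    refine (g.lip _ _ h _ (stp_mem _) _ (stp_mem _)).trans ?_
    have h2 := dist_stp (2 * x) (2 * y)
    have h3 : |2 * x - 2 * y| = 2 * (y - x) := by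
      rw [abs_sub_comm, show 2 * y - 2 * x = 2 * (y - x) by ring, abs_of_nonneg]
      linarith
    rw [h3] at h2
    have h4 : dist (a 0) (a σ) ≤ L := by
      refine (ha 0 ⟨le_rfl, zero_le_one⟩ σ ⟨h0, h1⟩).trans ?_
      rw [zero_sub, abs_neg, abs_of_nonneg h0]
      calc L * σ ≤ L * 1 := mul_le_mul_of_nonneg_left h1 hL
        _ = L := mul_one L
    calc _ ≤ (lstp * (2 * (y - x))) * L := mul_le_mul h2 h4 dist_nonneg
          (mul_nonneg hl (by linarith))
      _ = _ := by ring
  have k2 : ∀ x y : ℝ, x ≤ y → 1 / 2 ≤ x → dist (Nr g a σ x) (Nr g a σ y) ≤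
      2 * lstp * L * (y - x) := by
    intro x y hxy hx
    rw [Nr_right g h (by linarith), Nr_right g h (by linarith)]
    have m1 : ∀ z : ℝ, σ + (1 - σ) * stp z ∈ Icc (0 : ℝ) 1 := fun z => by
      have h3 := mul_nonneg (by linarith : 0 ≤ 1 - σ) (stp_nonneg z)
      have h4 := mul_le_mul_of_nonneg_left (stp_le_one z) (by linarith : 0 ≤ 1 - σ)
      exact ⟨by linarith, by linarith⟩
    refine (ha _ (m1 _) _ (m1 _)).trans ?_
    have h2 := dist_stp (2 * x - 1) (2 * y - 1)
    have h3 : |2 * x - 1 - (2 * y - 1)| = 2 * (y - x) := by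
      rw [abs_sub_comm, show 2 * y - 1 - (2 * x - 1) = 2 * (y - x) by ring, abs_of_nonneg]
      linarith
    rw [h3] at h2
    have h4 : |σ + (1 - σ) * stp (2 * x - 1) - (σ + (1 - σ) * stp (2 * y - 1))| ≤
        lstp * (2 * (y - x)) := by
      rw [add_sub_add_left_eq_sub, ← mul_sub, abs_mul, abs_of_nonneg (by linarith : 0 ≤ 1 - σ)]
      calc _ ≤ 1 * |stp (2 * x - 1) - stp (2 * y - 1)| :=
            mul_le_mul_of_nonneg_right (by linarith) (abs_nonneg _)
        _ ≤ _ := by rw [one_mul]; exact h2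
    calc _ ≤ L * (lstp * (2 * (y - x))) := mul_le_mul_of_nonneg_left h4 hL
      _ = _ := by ring
  rcases le_total y (1 / 2) with h2 | h2
  · exact k1 x y hxy h2
  rcases le_total x (1 / 2) with h3 | h3
  · have h4 := k1 x (1 / 2) h3 le_rfl
    have h5 := k2 (1 / 2) y h2 le_rfl
    have h6 := dist_triangle (Nr g a σ x) (Nr g a σ (1 / 2)) (Nr g a σ y)
    have h7 : 2 * lstp * L * (1 / 2 - x) + 2 * lstp * L * (y - 1 / 2) = 2 * lstp * L * (y - x) := by
      ring
    linarith
  · exact k2 x y hxy h3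

theorem Nr_var (h0 : 0 ≤ σ) (h1 : σ ≤ 1) (h : dist (a 0) (a σ) < D) :
    eVariationOn (Nr g a σ) (Icc 0 1) ≤ eVariationOn a (Icc 0 1) := by
  rw [var_split (Nr g a σ) (s := 1 / 2) (by norm_num) (by norm_num), var_split a h0 h1]
  refine add_le_add ?_ ?_
  · have e : EqOn (Nr g a σ) (fun x => g.G (a 0) (a σ) (stp (2 * x))) (Icc 0 (1 / 2)) :=
      fun x hx => Nr_left g h (by linarith [hx.2])
    rw [eVariationOn.eq_of_eqOn e]
    exact (var_G g h).trans (eVariationOn.edist_le a ⟨le_rfl, h0⟩ ⟨h0, le_rfl⟩)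
  · have e : EqOn (Nr g a σ) (fun x => a (σ + (1 - σ) * stp (2 * x - 1))) (Icc (1 / 2) 1) :=
      fun x hx => Nr_right g h (by linarith [hx.1])
    rw [eVariationOn.eq_of_eqOn e]
    refine eVariationOn.comp_le_of_monotoneOn a (fun x => σ + (1 - σ) * stp (2 * x - 1))
      (fun x _ y _ h => ?_) fun x _ => ?_
    · have := stp_mono (show 2 * x - 1 ≤ 2 * y - 1 by linarith)
      have h2 : 0 ≤ 1 - σ := by linarith
      have := mul_le_mul_of_nonneg_left this h2
      simp only
      linarith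
    · have h2 : 0 ≤ 1 - σ := by linarith
      have h3 := mul_nonneg h2 (stp_nonneg (2 * x - 1))
      have h4 := mul_le_mul_of_nonneg_left (stp_le_one (2 * x - 1)) h2
      exact ⟨by linarith, by linarith⟩

end Nr

/-- the last step: change of the parameter on the chord -/
noncomputable def Nq (a b : M) (σ x : ℝ) : M :=
  g.G a b ((1 - σ) * stp (2 * x) + σ * stp x)

section Nq

variable {a b : M} {σ : ℝ} (h0 : 0 ≤ σ) (h1 : σ ≤ 1) (h : dist a b < D)
include h0 h1

theorem Nq_mem (x : ℝ) : (1 - σ) * stp (2 * x) + σ * stp x ∈ Icc (0 : ℝ) 1 := by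
  have h2 := stp_mem (2 * x)
  have h3 := stp_mem x
  have e1 := mul_nonneg (by linarith : 0 ≤ 1 - σ) h2.1
  have e2 := mul_nonneg h0 h3.1
  have e3 := mul_le_mul_of_nonneg_left h2.2 (by linarith : 0 ≤ 1 - σ)
  have e4 := mul_le_mul_of_nonneg_left h3.2 h0
  exact ⟨by linarith, by linarith⟩

theorem Nq_mono : Monotone fun x => (1 - σ) * stp (2 * x) + σ * stp x := fun x y hxy =>
  add_le_add (mul_le_mul_of_nonneg_left (stp_mono (by linarith)) (by linarith))
    (mul_le_mul_of_nonneg_left (stp_mono hxy) h0)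

include h

theorem Nq_lip {x y : ℝ} (hxy : x ≤ y) :
    dist (Nq g a b σ x) (Nq g a b σ y) ≤ 2 * lstp * dist a b * (y - x) := by
  have hl := lstp.coe_nonneg
  refine (g.lip _ _ h _ (Nq_mem h0 h1 x) _ (Nq_mem h0 h1 y)).trans ?_
  have h2 := dist_stp (2 * x) (2 * y)
  have h3 : |2 * x - 2 * y| = 2 * (y - x) := by
    rw [abs_sub_comm, show 2 * y - 2 * x = 2 * (y - x) by ring, abs_of_nonneg]
    linarith
  rw [h3] at h2
  have h4 := dist_stp x y
  have h5 : |x - y| = y - x := by
    rw [abs_sub_comm, abs_of_nonneg]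
    linarith
  rw [h5] at h4
  have h6 : |(1 - σ) * stp (2 * x) + σ * stp x - ((1 - σ) * stp (2 * y) + σ * stp y)| ≤
      2 * lstp * (y - x) := by
    calc _ = |(1 - σ) * (stp (2 * x) - stp (2 * y)) + σ * (stp x - stp y)| := by congr 1; ring
      _ ≤ |(1 - σ) * (stp (2 * x) - stp (2 * y))| + |σ * (stp x - stp y)| := abs_add_le _ _
      _ = (1 - σ) * |stp (2 * x) - stp (2 * y)| + σ * |stp x - stp y| := by
        rw [abs_mul, abs_mul, abs_of_nonneg (by linarith : 0 ≤ 1 - σ), abs_of_nonneg h0]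
      _ ≤ (1 - σ) * (lstp * (2 * (y - x))) + σ * (lstp * (2 * (y - x))) := by
        refine add_le_add (mul_le_mul_of_nonneg_left h2 (by linarith))
          (mul_le_mul_of_nonneg_left (h4.trans ?_) h0)
        exact mul_le_mul_of_nonneg_left (by linarith) hl
      _ = _ := by ring
  calc _ ≤ (2 * lstp * (y - x)) * dist a b := mul_le_mul_of_nonneg_right h6 dist_nonneg
    _ = _ := by ring

theorem Nq_var : eVariationOn (Nq g a b σ) (Icc 0 1) ≤ edist a b := by
  have h1' : LipschitzOnWith (Real.toNNReal (dist a b)) (fun s => g.G a b s) (Icc (0 : ℝ) 1) := by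
    refine LipschitzOnWith.of_dist_le_mul fun s hs t ht => ?_
    rw [Real.coe_toNNReal _ dist_nonneg, mul_comm, Real.dist_eq]
    exact g.lip a b h s hs t ht
  have h2 := h1'.comp_eVariationOn_le (g := fun x : ℝ => (1 - σ) * stp (2 * x) + σ * stp x)
    (s := Icc (0 : ℝ) 1) (fun x _ => Nq_mem h0 h1 x)
  refine h2.trans ?_
  have h4 := ((Nq_mono h0 h1).monotoneOn (Icc (0 : ℝ) 1)).eVariationOn_eq (a := 0) (b := 1)
    ⟨le_rfl, zero_le_one⟩ ⟨zero_le_one, le_rfl⟩ |>.le
  have h5 : (1 - σ) * stp (2 * 1) + σ * stp 1 - ((1 - σ) * stp (2 * 0) + σ * stp 0) = 1 := by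
    rw [stp_of_ge (x := 2 * 1) (by norm_num), stp_of_ge (x := 1) (by norm_num),
      stp_of_le (x := 2 * 0) (by norm_num), stp_of_le (x := 0) (by norm_num)]
    ring
  simp only [h5, inter_self, ENNReal.ofReal_one] at h4
  calc _ ≤ (Real.toNNReal (dist a b) : ℝ≥0∞) * 1 := mul_le_mul_right h4 _
    _ = edist a b := by rw [mul_one, edist_dist]; rfl

end Nq


/-! ### the theorem -/

section Main

variable {S : ℝ} {V : Y → ℝ≥0∞} {c : Y → ℝ → M} {m : ℕ} [NeZero m]

/-- the vertices -/
noncomputable def vx (c : Y → ℝ → M) (m : ℕ) (o : ℝ) (y : Y) (k : ZMod m) : M :=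
  c y (o + (k.val : ℝ) / m)

theorem vx_int (hper : ∀ y t, c y (t + 1) = c y t) (o : ℝ) (y : Y) (i : ℤ) :
    vx c m o y (i : ZMod m) = arc (c y) m o i 0 := by
  have hm := m_pos (m := m)
  have hp : Function.Periodic (c y) 1 := hper y
  have h1 : (((i : ZMod m).val : ℕ) : ℤ) = i % m := ZMod.val_intCast i
  have h2 : (((i : ZMod m).val : ℕ) : ℝ) = ((i % m : ℤ) : ℝ) := by exact_mod_cast h1
  have h3 : (i : ℝ) = ((i % m : ℤ) : ℝ) + m * ((i / m : ℤ) : ℝ) := by
    exact_mod_cast (Int.emod_add_mul_ediv i m).symm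
  rw [vx, arc, h2, add_zero]
  have h4 : o + (i : ℝ) / m = o + ((i % m : ℤ) : ℝ) / m + ((i / m : ℤ) : ℝ) * 1 := by
    conv_lhs => rw [h3]
    field_simp
    ring
  rw [h4, hp.int_mul]

variable (h : LF DY DM S V c) (hS : 0 ≤ S) {o : ℝ}
  (hsh : ∀ y (i : ℤ), ∀ x ∈ Icc (0 : ℝ) 1, dist (arc (c y) m o i 0) (arc (c y) m o i x) < D)

include h in
theorem at_arc {E : Type} [NormedAddCommGroup E] [NormedSpace ℝ E] [FiniteDimensional ℝ E]
    {u : E → Y} {ξ : E → ℝ} {x : E} (hu : DY.At u x) (hξ : Sm ξ x) (i : ℤ) :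
    DM.At (fun s => arc (c (u s)) m o i (ξ s)) x := by
  refine h.smooth (u := fun s => (u s, o + ((i : ℝ) + ξ s) / m)) ⟨hu, ?_⟩
  filter_upwards [hξ] with s hs
  exact contDiffAt_const.add ((contDiffAt_const.add hs).div_const _)

include h in
theorem arc_per (y : Y) (i : ℤ) (x : ℝ) : arc (c y) m o (i + m) x = arc (c y) m o i x :=
  arc_add (c y) (h.per y) o i x

include h in
theorem arc_lip' (y : Y) (i : ℤ) (x z : ℝ) :
    dist (arc (c y) m o i x) (arc (c y) m o i z) ≤ S / m * |x - z| := dist_arc (h.lip y) o i x z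

include h hS hsh in
/-- the second step -/
theorem ar_two : LHt DY DM (2 * lstp * S) V (fun y t => c y (o + bet (m * t) / m))
    (fun y => cel m fun i x => g.G (arc (c y) m o i 0) (arc (c y) m o i 1) (stp (2 * x))) := by
  have hm := m_pos (m := m)
  have hD : ∀ y : Y, 0 < D := fun y => dist_nonneg.trans_lt (hsh y 0 0 ⟨le_rfl, zero_le_one⟩)
  have hK : ∀ (p : Y × ℝ) (i : ℤ), Nr g (arc (c p.1) m o i) (stp p.2) 1 =
      Nr g (arc (c p.1) m o (i + 1)) (stp p.2) 0 := fun p i => by
    rw [Nr_right g (hsh _ _ _ (stp_mem _)) (by norm_num), Nr_left g (hsh _ _ _ (stp_mem _))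
      (by norm_num), stp_of_ge (x := 2 * 1 - 1) (by norm_num), stp_of_le (x := 2 * 0)
      (by norm_num), g.zero _ _ (hsh _ _ _ (stp_mem _)), mul_one, add_sub_cancel, arc_one]
  refine ⟨fun p => cel m fun i x => Nr g (arc (c p.1) m o i) (stp p.2) x, ⟨?_, ?_, ?_, ?_⟩, ?_, ?_⟩
  · refine map_cel (DX := DY.prod (Dif.lin ℝ)) (v := fun p i => arc (c p.1) m o i 0)
      (K := fun p i x => Nr g (arc (c p.1) m o i) (stp p.2) x) ?_ ?_ ?_ ?_
    · intro i E _ _ _ u ξ x hu hξ hx
      have h2 : Sm (fun s => stp (u s).2) x := by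
        have h3 : Sm (fun s => (u s).2) x := hu.2
        filter_upwards [h3] with s hs using stp_contDiff.contDiffAt.comp s hs
      have h4 : DM.At (fun s => arc (c (u s).1) m o i 0) x :=
        at_arc h hu.1 (Sm.of_contDiff contDiff_const x) i
      have h5 : DM.At (fun s => arc (c (u s).1) m o i (stp (u s).2)) x := at_arc h hu.1 h2 i
      rcases lt_or_ge (ξ x) (1 / 2) with h6 | h6
      · have h7 : Sm (fun s => stp (2 * ξ s)) x := by
          filter_upwards [hξ] with s hs
          exact stp_contDiff.contDiffAt.comp s (contDiffAt_const.mul hs)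
        refine DM.congr (g.smooth h4 h5 h7 (hsh _ _ _ (stp_mem _))) ?_
        filter_upwards [hξ.continuousAt.eventually_lt_const h6] with s hs
        exact (Nr_left g (hsh _ _ _ (stp_mem _)) (by linarith)).symm
      · have h7 : Sm (fun s => stp (u s).2 + (1 - stp (u s).2) * stp (2 * ξ s - 1)) x := by
          filter_upwards [hξ, h2] with s hs hs2
          exact hs2.add ((contDiffAt_const.sub hs2).mul
            (stp_contDiff.contDiffAt.comp s ((contDiffAt_const.mul hs).sub contDiffAt_const)))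
        refine DM.congr (at_arc (m := m) (o := o) h hu.1 h7 i) ?_
        filter_upwards [hξ.continuousAt.eventually_const_lt (show (1 : ℝ) / 3 < ξ x by linarith)]
          with s hs
        exact (Nr_right g (hsh _ _ _ (stp_mem _)) hs.le).symm
    · intro i E _ _ _ u x hu
      exact at_arc h hu.1 (Sm.of_contDiff contDiff_const x) i
    · intro p i ξ h0 h1
      rw [Nr_left g (hsh _ _ _ (stp_mem _)) (by linarith), stp_of_le (x := 2 * ξ) (by linarith),
        g.zero _ _ (hsh _ _ _ (stp_mem _))]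
    · intro p i ξ h0 h1
      rw [Nr_right g (hsh _ _ _ (stp_mem _)) (by linarith), stp_of_ge (x := 2 * ξ - 1)
        (by linarith), mul_one, add_sub_cancel, arc_one]
  · intro p t
    refine cel_per (m := m) _ (fun i x => ?_) t
    rw [Nr, Nr, arc_per (m := m) h, arc_per (m := m) h, arc_per (m := m) h]
  · intro p s t
    have h2 : 0 ≤ S / m := div_nonneg hS hm.le
    have h3 := cel_lip (m := m) (hK p) (L := 2 * lstp * (S / m)) (fun i x hx z hz hxz =>
      Nr_lip g (stp_mem _).1 (stp_mem _).2 (hsh _ _ _ (stp_mem _)) h2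
        (fun x _ z _ => arc_lip' (m := m) (o := o) h p.1 i x z) hx hz hxz) s t
    refine h3.trans (le_of_eq ?_)
    field_simp
  · intro p
    refine (cel_var (m := m) (hK p) (v := fun n => eVariationOn (arc (c p.1) m o n) (Icc 0 1))
      fun n hn => Nr_var g (stp_mem _).1 (stp_mem _).2 (hsh _ _ _ (stp_mem _))).trans ?_
    rw [sum_var_arc (m := m) (c p.1) (h.per p.1) o]
    exact h.var p.1
  · intro y s t hs
    change Nr g (arc (c y) m o ⌊(m : ℝ) * t⌋) (stp s) (Int.fract ((m : ℝ) * t)) = _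
    have h2 : stp s = 0 := stp_of_le (by linarith)
    have h3 : dist (arc (c y) m o ⌊(m : ℝ) * t⌋ 0) (arc (c y) m o ⌊(m : ℝ) * t⌋ 0) < D :=
      hsh y _ 0 ⟨le_rfl, zero_le_one⟩
    rw [h2]
    have h4 : Nr g (arc (c y) m o ⌊(m : ℝ) * t⌋) 0 (Int.fract ((m : ℝ) * t)) =
        arc (c y) m o ⌊(m : ℝ) * t⌋ (stp (2 * Int.fract ((m : ℝ) * t) - 1)) := by
      rcases le_total (Int.fract ((m : ℝ) * t)) (1 / 2) with h5 | h5
      · rw [Nr_left g h3 (by linarith), G_self g (hD y) (stp_mem _),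
          stp_of_le (x := 2 * Int.fract ((m : ℝ) * t) - 1) (by linarith)]
      · rw [Nr_right g h3 (by linarith)]
        congr 1
        ring
    rw [h4]
    rfl
  · intro y s t hs
    change Nr g (arc (c y) m o ⌊(m : ℝ) * t⌋) (stp s) (Int.fract ((m : ℝ) * t)) =
      g.G (arc (c y) m o ⌊(m : ℝ) * t⌋ 0) (arc (c y) m o ⌊(m : ℝ) * t⌋ 1)
        (stp (2 * Int.fract ((m : ℝ) * t)))
    have h2 : stp s = 1 := stp_of_ge (by linarith)
    have h3 : dist (arc (c y) m o ⌊(m : ℝ) * t⌋ 0) (arc (c y) m o ⌊(m : ℝ) * t⌋ 1) < D :=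
      hsh y _ 1 ⟨zero_le_one, le_rfl⟩
    rw [h2]
    rcases le_total (Int.fract ((m : ℝ) * t)) (1 / 2) with h5 | h5
    · rw [Nr_left g h3 (by linarith)]
    · rw [Nr_right g h3 (by linarith), sub_self, zero_mul, add_zero,
        stp_of_ge (x := 2 * Int.fract ((m : ℝ) * t)) (by linarith), g.one _ _ h3]

include h hS hsh in
/-- the third step -/
theorem ar_three : LHt DY DM (2 * lstp * S) V
    (fun y => cel m fun i x => g.G (arc (c y) m o i 0) (arc (c y) m o i 1) (stp (2 * x)))
    (fun y => pl g (vx c m o y)) := by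
  have hm := m_pos (m := m)
  have h01 : ∀ (y : Y) (i : ℤ), dist (arc (c y) m o i 0) (arc (c y) m o i 1) < D := fun y i =>
    hsh y i 1 ⟨zero_le_one, le_rfl⟩
  have hend0 : ∀ (p : Y × ℝ) (i : ℤ) (x : ℝ), x ≤ 1 / 6 →
      Nq g (arc (c p.1) m o i 0) (arc (c p.1) m o i 1) (stp p.2) x = arc (c p.1) m o i 0 :=
    fun p i x hx => by
      rw [Nq, stp_of_le (x := 2 * x) (by linarith), stp_of_le (x := x) (by linarith), mul_zero,
        mul_zero, add_zero, g.zero _ _ (h01 _ _)]
  have hend1 : ∀ (p : Y × ℝ) (i : ℤ) (x : ℝ), 5 / 6 ≤ x →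
      Nq g (arc (c p.1) m o i 0) (arc (c p.1) m o i 1) (stp p.2) x =
        arc (c p.1) m o (i + 1) 0 := fun p i x hx => by
      rw [Nq, stp_of_ge (x := 2 * x) (by linarith), stp_of_ge (x := x) (by linarith), mul_one,
        mul_one, sub_add_cancel, g.one _ _ (h01 _ _), arc_one]
  have hK : ∀ (p : Y × ℝ) (i : ℤ),
      Nq g (arc (c p.1) m o i 0) (arc (c p.1) m o i 1) (stp p.2) 1 =
        Nq g (arc (c p.1) m o (i + 1) 0) (arc (c p.1) m o (i + 1) 1) (stp p.2) 0 := fun p i => by
    rw [hend0 p (i + 1) 0 (by norm_num), hend1 p i 1 (by norm_num)]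
  refine ⟨fun p => cel m fun i x =>
    Nq g (arc (c p.1) m o i 0) (arc (c p.1) m o i 1) (stp p.2) x, ⟨?_, ?_, ?_, ?_⟩, ?_, ?_⟩
  · refine map_cel (DX := DY.prod (Dif.lin ℝ)) (v := fun p i => arc (c p.1) m o i 0)
      (K := fun p i x => Nq g (arc (c p.1) m o i 0) (arc (c p.1) m o i 1) (stp p.2) x)
      ?_ ?_ (fun p i ξ _ h1 => hend0 p i ξ h1) (fun p i ξ h1 _ => hend1 p i ξ h1)
    · intro i E _ _ _ u ξ x hu hξ hx
      have h2 : Sm (fun s => stp (u s).2) x := by
        have h3 : Sm (fun s => (u s).2) x := hu.2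
        filter_upwards [h3] with s hs using stp_contDiff.contDiffAt.comp s hs
      have h7 : Sm (fun s => (1 - stp (u s).2) * stp (2 * ξ s) + stp (u s).2 * stp (ξ s)) x := by
        filter_upwards [hξ, h2] with s hs hs2
        exact ((contDiffAt_const.sub hs2).mul (stp_contDiff.contDiffAt.comp s
          (contDiffAt_const.mul hs))).add (hs2.mul (stp_contDiff.contDiffAt.comp s hs))
      exact g.smooth (at_arc h hu.1 (Sm.of_contDiff contDiff_const x) i)
        (at_arc h hu.1 (Sm.of_contDiff contDiff_const x) i) h7 (h01 _ _)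
    · intro i E _ _ _ u x hu
      exact at_arc h hu.1 (Sm.of_contDiff contDiff_const x) i
  · intro p t
    refine cel_per (m := m) _ (fun i x => ?_) t
    rw [arc_per (m := m) h, arc_per (m := m) h]
  · intro p s t
    have h3 := cel_lip (m := m) (hK p) (L := 2 * lstp * (S / m)) (fun i x hx z hz hxz => by
      refine (Nq_lip g (stp_mem _).1 (stp_mem _).2 (h01 _ _) hxz).trans ?_
      have h4 := arc_lip' h (m := m) (o := o) p.1 i 0 1
      rw [zero_sub, abs_neg, abs_one, mul_one] at h4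
      exact mul_le_mul_of_nonneg_right (mul_le_mul_of_nonneg_left h4
        (mul_nonneg zero_le_two lstp.coe_nonneg)) (by linarith)) s t
    refine h3.trans (le_of_eq ?_)
    field_simp
  · intro p
    refine (cel_var (m := m) (hK p) (v := fun n => eVariationOn (arc (c p.1) m o n) (Icc 0 1))
      fun n hn => (Nq_var g (stp_mem _).1 (stp_mem _).2 (h01 _ _)).trans
        (eVariationOn.edist_le _ ⟨le_rfl, zero_le_one⟩ ⟨zero_le_one, le_rfl⟩)).trans ?_
    rw [sum_var_arc (m := m) (c p.1) (h.per p.1) o]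
    exact h.var p.1
  · intro y s t hs
    change Nq g _ _ (stp s) (Int.fract ((m : ℝ) * t)) =
      g.G (arc (c y) m o ⌊(m : ℝ) * t⌋ 0) (arc (c y) m o ⌊(m : ℝ) * t⌋ 1)
        (stp (2 * Int.fract ((m : ℝ) * t)))
    rw [Nq, stp_of_le (x := s) (by linarith), sub_zero, one_mul, zero_mul, add_zero]
  · intro y s t hs
    change Nq g _ _ (stp s) (Int.fract ((m : ℝ) * t)) = pl g (vx c m o y) t
    have h2 : vx c m o y ((⌊(m : ℝ) * t⌋ : ℤ) + 1) = arc (c y) m o ⌊(m : ℝ) * t⌋ 1 := by
      have h3 := vx_int (c := c) (m := m) h.per o y (⌊(m : ℝ) * t⌋ + 1)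
      rw [arc_one, ← h3]
      push_cast
      rfl
    rw [Nq, stp_of_ge (x := s) (by linarith), sub_self, zero_mul, one_mul, zero_add, pl,
      vx_int h.per, h2]

include h hS hsh in
/-- **every family of loops with short arcs is homotopic, through families of loops which are not
longer, to the family of the polygons with the vertices at the ends of the arcs** -/
theorem ar : LHt DY DM (2 * lstp * S) V c fun y => pl g (vx c m o y) := by
  have hm := m_pos (m := m)
  refine LHt.trans ?_ ((ar_two g h hS hsh).trans (ar_three g h hS hsh))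
  have h1 := h.rep (β := fun t => o + bet (m * t) / m) (L := 2 * lstp) hS ?_ ?_ ?_ ?_ ?_
  · exact h1.mono (le_of_eq (by ring)) fun y => le_rfl
  · exact contDiff_const.add ((bet_contDiff.comp (contDiff_const.mul contDiff_id)).div_const _)
  · intro s t hst
    have h2 := bet_mono (mul_le_mul_of_nonneg_left hst hm.le)
    have h3 : bet (m * s) / m ≤ bet (m * t) / m := div_le_div_of_nonneg_right h2 hm.le
    change o + bet (m * s) / m ≤ o + bet (m * t) / m
    linarith
  · intro t
    have h2 : (m : ℝ) * (t + 1) = m * t + (m : ℤ) := by push_cast; ring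
    change o + bet (m * (t + 1)) / m = o + bet (m * t) / m + 1
    rw [h2, bet_add_int]
    push_cast
    field_simp
    ring
  · intro s t
    have h2 : o + bet (m * s) / m - (o + bet (m * t) / m) = (bet (m * s) - bet (m * t)) / m := by
      ring
    have h3 := bet_lip (m * s) (m * t)
    have h4 : |(m : ℝ) * s - m * t| = m * |s - t| := by
      rw [← mul_sub, abs_mul, abs_of_pos hm]
    rw [h2, abs_div, abs_of_pos hm, div_le_iff₀ hm]
    rw [h4] at h3
    refine h3.trans (le_of_eq (by ring))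
  · have := lstp_one
    linarith

end Main

end Vale.Agent.P231.S3B1
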