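import Vale.Agent.P231.S3B1.Pl

/-!
# P231, stage 3, block S3-B1: maps of the line given on the cells `[i / m, (i + 1) / m]`

Also: families of loops and their homotopies.
-/

set_option linter.unusedSectionVars false
set_option linter.unusedVariables false

open Set Filter Topology Module
open scoped ContDiff ENNReal

namespace Vale.Agent.P231.S3B1

open Vale.Agent.P231.Fm Vale.Agent.P231.H766 Vale.Agent.P231.S3A Vale.Agent.P231.S3L

/-! ### one map -/

section One

variable {M : Type*} {m : ℕ} [NeZero m]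

/-- the map which is `K i` on the cell `i` -/
noncomputable def cel (m : ℕ) (K : ℤ → ℝ → M) (t : ℝ) : M :=
  K ⌊(m : ℝ) * t⌋ (Int.fract ((m : ℝ) * t))

theorem cel_per (K : ℤ → ℝ → M) (hK : ∀ i x, K (i + m) x = K i x) (t : ℝ) :
    cel m K (t + 1) = cel m K t := by
  have h1 : (m : ℝ) * (t + 1) = m * t + (m : ℤ) := by push_cast; ring
  rw [cel, cel, h1, Int.floor_add_intCast, Int.fract_add_intCast, hK]

theorem cel_eq {K : ℤ → ℝ → M} (hK : ∀ i, K i 1 = K (i + 1) 0) {t : ℝ} {i : ℤ}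
    (h0 : (i : ℝ) ≤ m * t) (h1 : (m : ℝ) * t ≤ i + 1) : cel m K t = K i (m * t - i) := by
  rcases eq_or_lt_of_le h1 with h | h
  · have h2 : (m : ℝ) * t = ((i + 1 : ℤ) : ℝ) := by rw [h]; push_cast; ring
    rw [cel, h2, Int.floor_intCast, Int.fract_intCast, ← hK]
    congr 1
    push_cast
    ring
  · have h2 : ⌊(m : ℝ) * t⌋ = i := Int.floor_eq_iff.2 ⟨h0, h⟩
    rw [cel, Int.fract, h2]

end One

section Metric

variable {M : Type*} [MetricSpace M] {m : ℕ} [NeZero m]

theorem lip_cells_aux {f : ℝ → M} {L : ℝ} (h : ∀ (i : ℤ) (s t : ℝ), (i : ℝ) ≤ m * s → s ≤ t →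
    (m : ℝ) * t ≤ i + 1 → dist (f s) (f t) ≤ L * (t - s)) (n : ℕ) : ∀ s t : ℝ, s ≤ t →
    (m : ℝ) * t ≤ ⌊(m : ℝ) * s⌋ + n + 1 → dist (f s) (f t) ≤ L * (t - s) := by
  have hm := m_pos (m := m)
  induction n with
  | zero =>
    intro s t hst ht
    exact h _ s t (Int.floor_le _) hst (by simpa using ht)
  | succ n ih =>
    intro s t hst ht
    rcases le_or_gt ((m : ℝ) * t) (⌊(m : ℝ) * s⌋ + n + 1) with h' | h'
    · exact ih s t hst h'
    · set r : ℝ := (⌊(m : ℝ) * s⌋ + n + 1) / m with hr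
      have h1 : (m : ℝ) * r = ⌊(m : ℝ) * s⌋ + n + 1 := by
        rw [hr, mul_div_cancel₀ _ hm.ne']
      have h2 : s ≤ r := by
        rw [hr, le_div_iff₀ hm, mul_comm]
        have := (Int.lt_floor_add_one ((m : ℝ) * s)).le
        have h3 : (0 : ℝ) ≤ n := Nat.cast_nonneg n
        linarith
      have h3 : r ≤ t := by
        rw [hr, div_le_iff₀ hm, mul_comm t]
        exact h'.le
      have h4 := ih s r h2 h1.le
      have h5 := h (⌊(m : ℝ) * s⌋ + n + 1) r t
        (by rw [h1]; push_cast; exact le_rfl) h3 (by push_cast at ht ⊢; linarith)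
      calc _ ≤ dist (f s) (f r) + dist (f r) (f t) := dist_triangle _ _ _
        _ ≤ L * (r - s) + L * (t - r) := add_le_add h4 h5
        _ = _ := by ring

/-- a map which is Lipschitz on the cells is Lipschitz -/
theorem lip_cells {f : ℝ → M} {L : ℝ} (h : ∀ (i : ℤ) (s t : ℝ), (i : ℝ) ≤ m * s → s ≤ t →
    (m : ℝ) * t ≤ i + 1 → dist (f s) (f t) ≤ L * (t - s)) (s t : ℝ) :
    dist (f s) (f t) ≤ L * |s - t| := by
  rcases le_total s t with hst | hst
  · obtain ⟨n, hn⟩ := exists_nat_ge ((m : ℝ) * t - ⌊(m : ℝ) * s⌋)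
    rw [abs_sub_comm, abs_of_nonneg (sub_nonneg.2 hst)]
    exact lip_cells_aux h n s t hst (by linarith)
  · obtain ⟨n, hn⟩ := exists_nat_ge ((m : ℝ) * s - ⌊(m : ℝ) * t⌋)
    rw [abs_of_nonneg (sub_nonneg.2 hst), dist_comm]
    exact lip_cells_aux h n t s hst (by linarith)

theorem cel_lip {K : ℤ → ℝ → M} (hK : ∀ i, K i 1 = K (i + 1) 0) {L : ℝ}
    (h : ∀ i, ∀ x ∈ Icc (0 : ℝ) 1, ∀ y ∈ Icc (0 : ℝ) 1, x ≤ y → dist (K i x) (K i y) ≤ L * (y - x))
    (s t : ℝ) : dist (cel m K s) (cel m K t) ≤ m * L * |s - t| := by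
  have hm := m_pos (m := m)
  refine lip_cells (m := m) (fun i s t h0 hst h1 => ?_) s t
  have h2 : (m : ℝ) * s ≤ m * t := mul_le_mul_of_nonneg_left hst hm.le
  rw [cel_eq hK h0 (h2.trans h1), cel_eq hK (h0.trans h2) h1]
  have h3 := h i (m * s - i) ⟨by linarith, by linarith⟩ (m * t - i) ⟨by linarith, by linarith⟩
    (by linarith)
  refine h3.trans (le_of_eq ?_)
  ring

theorem var_cells {f : ℝ → M} {v : ℕ → ℝ≥0∞}
    (h : ∀ n : ℕ, n < m → eVariationOn f (Icc ((n : ℝ) / m) ((n + 1 : ℝ) / m)) ≤ v n) (n : ℕ)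
    (hn : n ≤ m) : eVariationOn f (Icc 0 ((n : ℝ) / m)) ≤ ∑ i ∈ Finset.range n, v i := by
  have hm := m_pos (m := m)
  induction n with
  | zero =>
    simp only [Nat.cast_zero, zero_div, Icc_self, Finset.range_zero, Finset.sum_empty]
    exact (eVariationOn.subsingleton _ subsingleton_singleton).le
  | succ n ih =>
    have h1 : (0 : ℝ) ≤ (n : ℝ) / m := div_nonneg (Nat.cast_nonneg n) hm.le
    have h2 : (n : ℝ) / m ≤ ((n + 1 : ℕ) : ℝ) / m :=
      div_le_div_of_nonneg_right (by push_cast; linarith) hm.le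
    have h3 := eVariationOn.Icc_add_Icc f (s := univ) h1 h2 (mem_univ _)
    simp only [univ_inter] at h3
    rw [← h3, Finset.sum_range_succ]
    refine add_le_add (ih (by omega)) ?_
    have h4 := h n (by omega)
    rwa [show ((n : ℝ) + 1) / m = ((n + 1 : ℕ) : ℝ) / m by push_cast; rfl] at h4

/-- the variation over the arcs -/
theorem var_arcs (c : ℝ → M) (hc : ∀ t, c (t + 1) = c t) (o : ℝ) (n : ℕ) :
    ∑ i ∈ Finset.range n, eVariationOn c (Icc (o + (i : ℝ) / m) (o + (i + 1 : ℝ) / m)) =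
      eVariationOn c (Icc o (o + (n : ℝ) / m)) := by
  have hm := m_pos (m := m)
  induction n with
  | zero =>
    simp only [Nat.cast_zero, zero_div, add_zero, Icc_self, Finset.range_zero, Finset.sum_empty]
    exact (eVariationOn.subsingleton _ subsingleton_singleton).symm
  | succ n ih =>
    have h1 : o ≤ o + (n : ℝ) / m := by
      have := div_nonneg (Nat.cast_nonneg (α := ℝ) n) hm.le
      linarith
    have h2 : o + (n : ℝ) / m ≤ o + ((n + 1 : ℕ) : ℝ) / m := by
      have : (n : ℝ) / m ≤ ((n + 1 : ℕ) : ℝ) / m :=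
        div_le_div_of_nonneg_right (by push_cast; linarith) hm.le
      linarith
    have h3 := eVariationOn.Icc_add_Icc c (s := univ) h1 h2 (mem_univ _)
    simp only [univ_inter] at h3
    rw [Finset.sum_range_succ, ih, ← h3]
    push_cast
    rfl

theorem cel_var {K : ℤ → ℝ → M} (hK : ∀ i, K i 1 = K (i + 1) 0) {v : ℕ → ℝ≥0∞}
    (h : ∀ n : ℕ, n < m → eVariationOn (K n) (Icc 0 1) ≤ v n) :
    eVariationOn (cel m K) (Icc 0 1) ≤ ∑ i ∈ Finset.range m, v i := by
  have hm := m_pos (m := m)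
  have h1 := var_cells (m := m) (f := cel m K) (v := v) (fun n hn => ?_) m le_rfl
  · rwa [div_self hm.ne'] at h1
  · have h2 : EqOn (cel m K) (K n ∘ fun t => m * t - n)
        (Icc ((n : ℝ) / m) ((n + 1 : ℝ) / m)) := by
      intro t ht
      have h3 := (div_le_iff₀ hm).1 ht.1
      have h4 := (le_div_iff₀ hm).1 ht.2
      have h5 := cel_eq (m := m) hK (t := t) (i := n) (by push_cast; linarith)
        (by push_cast; linarith)
      rw [h5]
      push_cast
      rfl
    rw [eVariationOn.eq_of_eqOn h2]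
    refine (eVariationOn.comp_le_of_monotoneOn (K n) (s := Icc 0 1) (fun t => (m : ℝ) * t - n)
      (fun s _ t _ hst => ?_) fun t ht => ?_).trans (h n hn)
    · have := mul_le_mul_of_nonneg_left hst hm.le
      simp only
      linarith
    · have h3 := (div_le_iff₀ hm).1 ht.1
      have h4 := (le_div_iff₀ hm).1 ht.2
      exact ⟨by linarith, by linarith⟩

/-- the arcs of a periodic map, rescaled -/
noncomputable def arc (c : ℝ → M) (m : ℕ) (o : ℝ) (i : ℤ) (x : ℝ) : M := c (o + (i + x) / m)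

theorem arc_one (c : ℝ → M) (o : ℝ) (i : ℤ) : arc c m o i 1 = arc c m o (i + 1) 0 := by
  rw [arc, arc]
  push_cast
  rw [add_zero]

theorem arc_add (c : ℝ → M) (hc : ∀ t, c (t + 1) = c t) (o : ℝ) (i : ℤ) (x : ℝ) :
    arc c m o (i + m) x = arc c m o i x := by
  have hm := m_pos (m := m)
  have h1 := hc (o + ((i : ℝ) + x) / m)
  rw [arc, arc, ← h1]
  congr 1
  push_cast
  field_simp
  ring

theorem var_arc (c : ℝ → M) (o : ℝ) (n : ℕ) : eVariationOn (arc c m o n) (Icc 0 1) =
    eVariationOn c (Icc (o + (n : ℝ) / m) (o + (n + 1 : ℝ) / m)) := by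
  have hm := m_pos (m := m)
  have h1 : arc c m o n = c ∘ fun x : ℝ => o + (n + x) / m := by
    funext x
    rw [arc]
    push_cast
    rfl
  rw [h1, eVariationOn.comp_eq_of_monotoneOn]
  · congr 1
    ext y
    simp only [mem_image, mem_Icc]
    constructor
    · rintro ⟨x, ⟨h4, h5⟩, rfl⟩
      constructor
      · have : (n : ℝ) / m ≤ (n + x) / m := div_le_div_of_nonneg_right (by linarith) hm.le
        linarith
      · have : ((n : ℝ) + x) / m ≤ (n + 1) / m := div_le_div_of_nonneg_right (by linarith) hm.le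
        linarith
    · rintro ⟨h4, h5⟩
      refine ⟨(y - o) * m - n, ⟨?_, ?_⟩, ?_⟩
      · have : (n : ℝ) / m ≤ y - o := by linarith
        have := (div_le_iff₀ hm).1 this
        linarith
      · have : y - o ≤ (n + 1 : ℝ) / m := by linarith
        have := (le_div_iff₀ hm).1 this
        linarith
      · field_simp
        ring
  · intro x _ y _ hxy
    have : ((n : ℝ) + x) / m ≤ (n + y) / m := div_le_div_of_nonneg_right (by linarith) hm.le
    simp only
    linarith

theorem dist_arc {c : ℝ → M} {S : ℝ} (hc : ∀ s t, dist (c s) (c t) ≤ S * |s - t|) (o : ℝ) (i : ℤ)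
    (x y : ℝ) : dist (arc c m o i x) (arc c m o i y) ≤ S / m * |x - y| := by
  have hm := m_pos (m := m)
  refine (hc _ _).trans (le_of_eq ?_)
  have h1 : o + ((i : ℝ) + x) / m - (o + (i + y) / m) = (x - y) / m := by
    field_simp
    ring
  rw [h1, abs_div, abs_of_pos hm]
  ring

/-- the variations of the arcs add up -/
theorem sum_var_arc (c : ℝ → M) (hc : ∀ t, c (t + 1) = c t) (o : ℝ) :
    ∑ n ∈ Finset.range m, eVariationOn (arc c m o n) (Icc 0 1) = eVariationOn c (Icc 0 1) := by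
  have hm := m_pos (m := m)
  rw [← var_period hc o]
  have h1 := var_arcs (m := m) c hc o m
  rw [div_self hm.ne'] at h1
  rw [← h1]
  exact Finset.sum_congr rfl fun n _ => var_arc c o n

end Metric

/-! ### families -/

section Fam

variable {M : Type*} {DM : Dif M} {X : Type*} {DX : Dif X} {m : ℕ} [NeZero m]

/-- smoothness of a family given on cells, constant near the ends of the cells -/
theorem map_cel {K : X → ℤ → ℝ → M} {v : X → ℤ → M}
    (hs : ∀ (i : ℤ) {V : Type} [NormedAddCommGroup V] [NormedSpace ℝ V] [FiniteDimensional ℝ V]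
      {u : V → X} {ξ : V → ℝ} {x : V}, DX.At u x → Sm ξ x → ξ x ∈ Ioo (0 : ℝ) 1 →
        DM.At (fun y => K (u y) i (ξ y)) x)
    (hv : ∀ i, DX.Map DM fun x => v x i)
    (h0 : ∀ x i ξ, 0 ≤ ξ → ξ ≤ 1 / 6 → K x i ξ = v x i)
    (h1 : ∀ x i ξ, 5 / 6 ≤ ξ → ξ ≤ 1 → K x i ξ = v x (i + 1)) :
    (DX.prod (Dif.lin ℝ)).Map DM fun p => cel m (K p.1) p.2 := by
  have hm := m_pos (m := m)
  intro V _ _ _ w x₀ hw
  obtain ⟨hu, hτ⟩ := hw
  have hτ' : Sm (fun y => (m : ℝ) * (w y).2) x₀ := by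
    filter_upwards [hτ] with y hy using contDiffAt_const.mul hy
  set i : ℤ := ⌊(m : ℝ) * (w x₀).2⌋ with hi
  have g0 : (i : ℝ) ≤ m * (w x₀).2 := Int.floor_le _
  have g1 : (m : ℝ) * (w x₀).2 < i + 1 := Int.lt_floor_add_one _
  have hK : ∀ x i, K x i 1 = K x (i + 1) 0 := fun x i => by
    rw [h0 x (i + 1) 0 le_rfl (by norm_num), h1 x i 1 (by norm_num) le_rfl]
  change DM.At (fun y => cel m (K (w y).1) (w y).2) x₀
  rcases eq_or_lt_of_le g0 with h | h
  · have h2 : ∀ᶠ y in 𝓝 x₀, |(m : ℝ) * (w y).2 - i| < 1 / 6 := by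
      have h3 : ContinuousAt (fun y => |(m : ℝ) * (w y).2 - i|) x₀ :=
        (hτ'.continuousAt.sub continuousAt_const).abs
      refine h3.eventually_lt continuousAt_const ?_
      rw [← h, sub_self, abs_zero]
      norm_num
    refine DM.congr (hv i hu) ?_
    filter_upwards [h2] with y hy
    obtain ⟨h3, h4⟩ := abs_lt.1 hy
    change v (w y).1 i = cel m (K (w y).1) (w y).2
    rcases le_total (i : ℝ) (m * (w y).2) with h5 | h5
    · rw [cel_eq (hK _) h5 (by linarith), h0 _ _ _ (by linarith) (by linarith)]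
    · have h6 : ((i - 1 : ℤ) : ℝ) ≤ m * (w y).2 := by push_cast; linarith
      rw [cel_eq (hK _) h6 (by push_cast; linarith), h1 _ _ _ (by push_cast; linarith)
        (by push_cast; linarith), sub_add_cancel]
  · have h3 : Sm (fun y => (m : ℝ) * (w y).2 - i) x₀ := by
      filter_upwards [hτ'] with y hy using hy.sub contDiffAt_const
    have h4 := hs i hu h3 ⟨by linarith, by linarith⟩
    refine DM.congr h4 ?_
    have h5 : ∀ᶠ y in 𝓝 x₀, (i : ℝ) < m * (w y).2 :=
      continuousAt_const.eventually_lt hτ'.continuousAt h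
    have h6 : ∀ᶠ y in 𝓝 x₀, (m : ℝ) * (w y).2 < i + 1 :=
      hτ'.continuousAt.eventually_lt continuousAt_const g1
    filter_upwards [h5, h6] with y hy1 hy2
    exact (cel_eq (hK _) hy1.le hy2.le).symm

end Fam

end Vale.Agent.P231.S3B1
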