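import Vale.Agent.P231.S3B1.Gc
import Vale.Agent.P231.S3B3.Y8

/-!
# P231, stage 3, block S3-B1: the closed family near the straight loops, in the notation of S3-B3
-/

set_option maxSynthPendingDepth 3
set_option linter.unusedSectionVars false
set_option linter.unusedVariables false

open Bundle Manifold Set Filter Module
open scoped ContDiff Manifold Topology ENNReal

namespace Vale.Agent.P231.S3B1

noncomputable section

open Vale.Agent.P234 Vale.Agent.P231 Vale.Agent.P231.H775 Vale.Agent.P231.Fm Vale.Agent.P231.W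
  Vale.Agent.P231.WD3 Vale.Agent.P231.H766 Vale.Agent.P231.S3A Vale.Agent.P231.S3L
  Vale.Agent.P231.S3R Vale.Agent.P231.WR Vale.Agent.P231.S2N Vale.Agent.P231.WF
  Vale.Agent.P231.S3B3

variable {E : Type*} [NormedAddCommGroup E] [NormedSpace ℝ E] [FiniteDimensional ℝ E]
  {M : Type*} [MetricSpace M] [ChartedSpace E M] [IsManifold 𝓘(ℝ, E) ∞ M]
  [RiemannianBundle (fun x : M => TangentSpace 𝓘(ℝ, E) x)]
  [IsContMDiffRiemannianBundle 𝓘(ℝ, E) ∞ E (fun x : M => TangentSpace 𝓘(ℝ, E) x)]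
  {e : ∀ x : M, TangentSpace 𝓘(ℝ, E) x → M}
  [CompactSpace M] [ConnectedSpace M] [IsRiemannianManifold 𝓘(ℝ, E) M]
  {D : ℝ} {ι : Type} [Fintype ι] [DecidableEq ι]

theorem v8_eq_y8 (F : Facts e) (y : GY e D) : v8 F y =
    y8 e D ![upo F y 0, upo F y 1, upo F y 2, upo F y 3] := rfl

variable {F : Facts e} {hD : 0 < D} {hB : InjGE e D} {hdiam : ∀ p q : M, dist p q ≤ D}
  {l : ℕ} {X δ : ι → UT E M → E} {ε : ℝ}
  (hP : ∀ x y : M, dist x y = D → finrank ℝ (H775.Pl e D x y) = l + 1)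
  (h : Fam F hD hB hdiam l X δ ε)

/-- near the centre -/
theorem sph_eq_nv {v : UT E M} {c : EuclideanSpace ℝ ι} (h0 : ‖Pm F D X δ ε v c‖ ^ 2 ≤ 1 / 6) :
    sph hP h v c = nv v (Th0 F hD hB hdiam (XX X (Pm F D X δ ε v c)) v) := by
  refine mk_congr rfl ?_
  have h1 := sph_near hP h h0
  have h2 := (mem_Lf.1 (Th0_mem F hD hB hdiam (XX X (Pm F D X δ ε v c)) v)).2
  have h3 := vec'_nv' (v := v) h2
  exact h1.trans h3.symm

theorem vj_one (v : UT E M) : vj F D v 1 = phi F (v, D) := by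
  rw [vj]
  congr 2
  simp

include hD hB hdiam in
theorem vj_two (v : UT E M) : vj F D v 2 = v := by
  have h1 : vj F D v 2 = phi F (v, 2 * D) := by
    rw [vj]
    congr 2
  rw [h1, W.phi_per F hD hB hdiam]

include hD hB hdiam in
theorem vj_three (v : UT E M) : vj F D v 3 = phi F (v, D) := by
  have h1 : vj F D v 3 = phi F (v, 2 * D + D) := by
    rw [vj]
    congr 2
    change ((3 : ℕ) : ℝ) * D = 2 * D + D
    push_cast
    ring
  rw [h1, ← phi_add, W.phi_per F hD hB hdiam]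

/-- **the closed family near the centre is the family of 8-gons of S3-B3** -/
theorem v8_Gc_near {v : UT E M} {c : EuclideanSpace ℝ ι × EuclideanSpace ℝ ι ×
    EuclideanSpace ℝ ι} (h1 : ‖Pm F D X δ ε v c.1‖ ^ 2 ≤ 1 / 6)
    (h2 : ‖Pm F D X δ ε v c.2.1‖ ^ 2 ≤ 1 / 6) (h3 : ‖Pm F D X δ ε v c.2.2‖ ^ 2 ≤ 1 / 6)
    {cc : Fin 4 → EuclideanSpace ℝ ι} (k0 : cc 0 = 0) (k1 : cc 1 = Pm F D X δ ε v c.1)
    (k2 : cc 2 = Pm F D X δ ε v c.2.1) (k3 : cc 3 = Pm F D X δ ε v c.2.2) :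
    v8 F (Gc hP h (v, c)) =
      y8 e D (fun j => nv (vj F D v j) (Th0 F hD hB hdiam (XX X (cc j)) (vj F D v j))) := by
  obtain ⟨g0, g1, g2, g3⟩ := upo_Gc hP h (v, c)
  rw [v8_eq_y8, g0, g1, g2, g3]
  have hp : ∀ c, Pm F D X δ ε (phi F (v, D)) c = Pm F D X δ ε v c := fun c => by
    rw [Fam.Pm_phi F hD hB hdiam]
  congr 1
  funext j
  revert j
  refine forall_f4 ?_ ?_ ?_ ?_
  · rw [k0, vj_zero, Th0_zero', nv_zero]
    rfl
  · change sph hP h (phi F (v, D)) c.1 = _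
    rw [k1, vj_one, sph_eq_nv hP h (by rw [hp]; exact h1), hp]
  · change sph hP h v c.2.1 = _
    rw [k2, vj_two (hD := hD) (hB := hB) (hdiam := hdiam), sph_eq_nv hP h h2]
  · change sph hP h (phi F (v, D)) c.2.2 = _
    rw [k3, vj_three (hD := hD) (hB := hB) (hdiam := hdiam), sph_eq_nv hP h (by rw [hp]; exact h3),
      hp]

end

end Vale.Agent.P231.S3B1
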