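import Vale.Agent.P231.S3L.LL
import Vale.Agent.P231.S3A.Poly

/-!
# P231, stage 3, block S3-B1: closed polygons as smooth loops

`pl g x` is the closed polygon with the vertices `x i`, `i : ZMod m`, travelled with stops at the
vertices; it is smooth, Lipschitz, and its variation is the perimeter.
-/

set_option linter.unusedSectionVars false
set_option linter.unusedVariables false

open Set Filter Topology Module
open scoped ContDiff ENNReal

namespace Vale.Agent.P231.S3B1

open Vale.Agent.P231.Fm Vale.Agent.P231.H766 Vale.Agent.P231.S3A Vale.Agent.P231.S3L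

/-! ### the step function is Lipschitz -/

theorem exists_lip_stp : ∃ k : NNReal, LipschitzWith k stp := by
  have h1 : Continuous (deriv stp) := stp_contDiff.continuous_deriv (by simp)
  obtain ⟨C, hC⟩ := isCompact_Icc.exists_bound_of_continuousOn (s := Icc (0 : ℝ) 1)
    (f := deriv stp) h1.continuousOn
  have h2 : ∀ x, ‖deriv stp x‖ ≤ max C 0 := by
    intro x
    by_cases hx : x ∈ Icc (0 : ℝ) 1
    · exact (hC x hx).trans (le_max_left _ _)
    · have h3 : deriv stp x = 0 := by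
        rcases not_and_or.1 hx with h | h
        · have h4 : stp =ᶠ[𝓝 x] fun _ => (0 : ℝ) := by
            filter_upwards [Iio_mem_nhds (not_le.1 h)] with y hy
            exact stp_of_le (by have : y < 0 := hy; linarith)
          rw [h4.deriv_eq, deriv_const]
        · have h4 : stp =ᶠ[𝓝 x] fun _ => (1 : ℝ) := by
            filter_upwards [Ioi_mem_nhds (not_le.1 h)] with y hy
            exact stp_of_ge (by have : 1 < y := hy; linarith)
          rw [h4.deriv_eq, deriv_const]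
      rw [h3, norm_zero]
      exact le_max_right _ _
  refine ⟨⟨max C 0, le_max_right _ _⟩, ?_⟩
  refine lipschitzWith_of_nnnorm_deriv_le (stp_contDiff.differentiable (by simp)) fun x => ?_
  exact h2 x

/-- a Lipschitz constant of the step function -/
noncomputable def lstp : NNReal := exists_lip_stp.choose

theorem lip_stp : LipschitzWith lstp stp := exists_lip_stp.choose_spec

theorem dist_stp (x y : ℝ) : |stp x - stp y| ≤ lstp * |x - y| := by
  have h := lip_stp.dist_le_mul x y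
  rwa [Real.dist_eq, Real.dist_eq] at h

/-! ### polygons -/

variable {M : Type*} [MetricSpace M] {DM : Dif M} {D : ℝ} (g : Geo DM D) {m : ℕ} [NeZero m]

theorem m_pos : (0 : ℝ) < m := by exact_mod_cast Nat.pos_of_ne_zero (NeZero.ne m)

/-- the closed polygon -/
noncomputable def pl (x : ZMod m → M) (t : ℝ) : M :=
  g.G (x (⌊(m : ℝ) * t⌋ : ℤ)) (x ((⌊(m : ℝ) * t⌋ : ℤ) + 1)) (stp (Int.fract ((m : ℝ) * t)))

theorem pl_per (x : ZMod m → M) (t : ℝ) : pl g x (t + 1) = pl g x t := by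
  have h1 : (m : ℝ) * (t + 1) = m * t + (m : ℤ) := by push_cast; ring
  rw [pl, pl, h1, Int.floor_add_intCast, Int.fract_add_intCast]
  have h2 : ((⌊(m : ℝ) * t⌋ + (m : ℤ) : ℤ) : ZMod m) = (⌊(m : ℝ) * t⌋ : ℤ) := by
    push_cast
    rw [ZMod.natCast_self, add_zero]
  rw [h2]

section Formula

variable {x : ZMod m → M} (hx : ∀ i, sd x i < D)
include hx

/-- the polygon on one of its edges -/
theorem pl_eq {t : ℝ} {i : ℤ} (h0 : (i : ℝ) ≤ m * t) (h1 : (m : ℝ) * t ≤ i + 1) :
    pl g x t = g.G (x i) (x (i + 1)) (stp (m * t - i)) := by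
  rcases eq_or_lt_of_le h1 with h | h
  · have h2 : (m : ℝ) * t = ((i + 1 : ℤ) : ℝ) := by rw [h]; push_cast; ring
    rw [pl, h2, Int.floor_intCast, Int.fract_intCast, stp_of_le (by norm_num)]
    have h3 : stp (((i + 1 : ℤ) : ℝ) - i) = 1 := stp_of_ge (by push_cast; linarith)
    rw [h3]
    have h4 := g.zero (x ((i + 1 : ℤ) : ZMod m)) (x (((i + 1 : ℤ) : ZMod m) + 1)) (hx _)
    have h5 := g.one (x (i : ZMod m)) (x ((i : ZMod m) + 1)) (hx _)
    rw [h4, h5]
    push_cast
    rfl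
  · have h2 : ⌊(m : ℝ) * t⌋ = i := Int.floor_eq_iff.2 ⟨h0, h⟩
    rw [pl, Int.fract, h2]

/-- the polygon stops at its vertices -/
theorem pl_vertex {t : ℝ} {i : ℤ} (h : |(m : ℝ) * t - i| ≤ 1 / 3) : pl g x t = x i := by
  rw [abs_le] at h
  rcases le_total ((i : ℝ)) (m * t) with h1 | h1
  · rw [pl_eq g hx h1 (by linarith), stp_of_le (by linarith), g.zero _ _ (hx _)]
  · have h2 : ((i - 1 : ℤ) : ℝ) ≤ m * t := by push_cast; linarith
    rw [pl_eq g hx h2 (by push_cast; linarith), stp_of_ge (by push_cast; linarith)]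
    have h3 := g.one (x ((i - 1 : ℤ) : ZMod m)) (x (((i - 1 : ℤ) : ZMod m) + 1)) (hx _)
    rw [h3]
    congr 1
    push_cast
    ring

theorem pl_zero' : pl g x 0 = x 0 := by
  have h := pl_vertex g hx (t := 0) (i := 0) (by norm_num)
  simpa using h

theorem pl_at (i : ℤ) : pl g x (i / m) = x i := by
  refine pl_vertex g hx ?_
  rw [mul_div_cancel₀ _ m_pos.ne']
  norm_num

end Formula

/-! ### the Lipschitz constant -/

section Lip

variable {x : ZMod m → M} {ρ : ℝ} (hρ : ρ < D) (hx : ∀ i, sd x i ≤ ρ)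
include hρ hx

theorem dist_pl_cell {s t : ℝ} {i : ℤ} (hs : (i : ℝ) ≤ m * s) (hst : s ≤ t)
    (ht : (m : ℝ) * t ≤ i + 1) : dist (pl g x s) (pl g x t) ≤ m * lstp * ρ * (t - s) := by
  have hx' : ∀ i, sd x i < D := fun i => (hx i).trans_lt hρ
  have hm := m_pos (m := m)
  have h1 : (m : ℝ) * s ≤ m * t := mul_le_mul_of_nonneg_left hst hm.le
  rw [pl_eq g hx' hs (h1.trans ht), pl_eq g hx' (hs.trans h1) ht]
  have h2 := g.lip _ _ (hx' i) _ (stp_mem (m * s - i)) _ (stp_mem (m * t - i))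
  refine h2.trans ?_
  have h3 := dist_stp (m * s - i) (m * t - i)
  have h4 : |(m : ℝ) * s - i - (m * t - i)| = m * (t - s) := by
    rw [show (m : ℝ) * s - i - (m * t - i) = -(m * (t - s)) by ring, abs_neg, abs_of_nonneg]
    exact mul_nonneg hm.le (sub_nonneg.2 hst)
  rw [h4] at h3
  have h5 : 0 ≤ ρ := (sd_nonneg x 0).trans (hx 0)
  calc |stp (m * s - i) - stp (m * t - i)| * dist (x i) (x (i + 1))
      ≤ (lstp * (m * (t - s))) * ρ := mul_le_mul h3 (hx i) dist_nonneg
        (mul_nonneg lstp.coe_nonneg (mul_nonneg hm.le (sub_nonneg.2 hst)))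
    _ = _ := by ring

theorem dist_pl_aux (n : ℕ) : ∀ s t : ℝ, s ≤ t → (m : ℝ) * t ≤ ⌊(m : ℝ) * s⌋ + n + 1 →
    dist (pl g x s) (pl g x t) ≤ m * lstp * ρ * (t - s) := by
  have hm := m_pos (m := m)
  induction n with
  | zero =>
    intro s t hst ht
    exact dist_pl_cell g hρ hx (Int.floor_le _) hst (by simpa using ht)
  | succ n ih =>
    intro s t hst ht
    rcases le_or_gt ((m : ℝ) * t) (⌊(m : ℝ) * s⌋ + n + 1) with h | h
    · exact ih s t hst h
    · set r : ℝ := (⌊(m : ℝ) * s⌋ + n + 1) / m with hr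
      have h1 : (m : ℝ) * r = ⌊(m : ℝ) * s⌋ + n + 1 := by
        rw [hr, mul_div_cancel₀ _ hm.ne']
      have h2 : s ≤ r := by
        rw [hr, le_div_iff₀ hm, mul_comm]
        have := (Int.lt_floor_add_one ((m : ℝ) * s)).le
        have h3 : (0 : ℝ) ≤ n := Nat.cast_nonneg n
        linarith
      have h3 : r ≤ t := by
        rw [hr, div_le_iff₀ hm, mul_comm t]
        exact h.le
      have h4 := ih s r h2 h1.le
      have h5 := dist_pl_cell g hρ hx (s := r) (t := t) (i := ⌊(m : ℝ) * s⌋ + n + 1)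
        (by rw [h1]; push_cast; exact le_rfl) h3 (by push_cast at ht ⊢; linarith)
      calc _ ≤ dist (pl g x s) (pl g x r) + dist (pl g x r) (pl g x t) := dist_triangle _ _ _
        _ ≤ m * lstp * ρ * (r - s) + m * lstp * ρ * (t - r) := add_le_add h4 h5
        _ = _ := by ring

theorem dist_pl {s t : ℝ} (hst : s ≤ t) :
    dist (pl g x s) (pl g x t) ≤ m * lstp * ρ * (t - s) := by
  obtain ⟨n, hn⟩ := exists_nat_ge ((m : ℝ) * t - ⌊(m : ℝ) * s⌋)
  exact dist_pl_aux g hρ hx n s t hst (by linarith)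

theorem lip_pl : LipschitzWith (Real.toNNReal (m * lstp * ρ)) (pl g x) := by
  have h5 : 0 ≤ ρ := (sd_nonneg x 0).trans (hx 0)
  refine LipschitzWith.of_dist_le_mul fun s t => ?_
  rw [Real.coe_toNNReal _ (mul_nonneg (mul_nonneg (Nat.cast_nonneg m) lstp.coe_nonneg) h5),
    Real.dist_eq]
  rcases le_total s t with h | h
  · rw [abs_sub_comm, abs_of_nonneg (sub_nonneg.2 h)]
    exact dist_pl g hρ hx h
  · rw [abs_of_nonneg (sub_nonneg.2 h), dist_comm]
    exact dist_pl g hρ hx h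

end Lip

/-! ### the variation -/

theorem var_G' {a b : M} (h : dist a b < D) {i : ℤ} :
    eVariationOn (fun t => g.G a b (stp (m * t - i))) (Icc ((i : ℝ) / m) ((i + 1 : ℝ) / m)) ≤
      edist a b := by
  have hm := m_pos (m := m)
  have h1 : LipschitzOnWith (Real.toNNReal (dist a b)) (fun s => g.G a b s) (Icc (0 : ℝ) 1) := by
    refine LipschitzOnWith.of_dist_le_mul fun s hs t ht => ?_
    rw [Real.coe_toNNReal _ dist_nonneg, mul_comm, Real.dist_eq]
    exact g.lip a b h s hs t ht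
  have hle : (i : ℝ) / m ≤ (i + 1 : ℝ) / m := div_le_div_of_nonneg_right (by linarith) hm.le
  have h2 := h1.comp_eVariationOn_le (g := fun t : ℝ => stp (m * t - i))
    (s := Icc ((i : ℝ) / m) ((i + 1 : ℝ) / m)) (fun t _ => stp_mem _)
  refine h2.trans ?_
  have h3 : MonotoneOn (fun t : ℝ => stp (m * t - i)) (Icc ((i : ℝ) / m) ((i + 1 : ℝ) / m)) :=
    fun t _ y _ h => stp_mono (by have := mul_le_mul_of_nonneg_left h hm.le; linarith)
  have h4 := (h3.eVariationOn_eq (a := (i : ℝ) / m) (b := (i + 1 : ℝ) / m) ⟨le_rfl, hle⟩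
    ⟨hle, le_rfl⟩).le
  have h5 : stp (m * ((i + 1 : ℝ) / m) - i) - stp (m * ((i : ℝ) / m) - i) = 1 := by
    rw [mul_div_cancel₀ _ hm.ne', mul_div_cancel₀ _ hm.ne', stp_of_ge (by linarith),
      stp_of_le (by linarith), sub_zero]
  simp only [h5, inter_self, ENNReal.ofReal_one] at h4
  calc _ ≤ (Real.toNNReal (dist a b) : ℝ≥0∞) * 1 := mul_le_mul_right h4 _
    _ = edist a b := by rw [mul_one, edist_dist]; rfl

theorem var_cell {x : ZMod m → M} (hx : ∀ i, sd x i < D) (i : ℤ) :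
    eVariationOn (pl g x) (Icc ((i : ℝ) / m) ((i + 1 : ℝ) / m)) ≤ edist (x i) (x (i + 1)) := by
  have hm := m_pos (m := m)
  have h1 : EqOn (pl g x) (fun t => g.G (x i) (x (i + 1)) (stp (m * t - i)))
      (Icc ((i : ℝ) / m) ((i + 1 : ℝ) / m)) := by
    intro t ht
    refine pl_eq g hx ?_ ?_
    · have := (div_le_iff₀ hm).1 ht.1
      linarith
    · have := (le_div_iff₀ hm).1 ht.2
      linarith
  rw [eVariationOn.eq_of_eqOn h1]
  exact var_G' g (hx _)

theorem var_upto {x : ZMod m → M} (hx : ∀ i, sd x i < D) (n : ℕ) :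
    eVariationOn (pl g x) (Icc 0 ((n : ℝ) / m)) ≤
      ∑ i ∈ Finset.range n, edist (x (i : ℕ)) (x ((i : ℕ) + 1)) := by
  have hm := m_pos (m := m)
  induction n with
  | zero =>
    simp only [Nat.cast_zero, zero_div, Icc_self, Finset.range_zero, Finset.sum_empty]
    exact (eVariationOn.subsingleton _ subsingleton_singleton).le
  | succ n ih =>
    have h1 : (0 : ℝ) ≤ (n : ℝ) / m := div_nonneg (Nat.cast_nonneg n) hm.le
    have h2 : (n : ℝ) / m ≤ ((n + 1 : ℕ) : ℝ) / m :=
      div_le_div_of_nonneg_right (by push_cast; linarith) hm.le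
    have h3 := eVariationOn.Icc_add_Icc (pl g x) (s := univ) h1 h2 (mem_univ _)
    simp only [univ_inter] at h3
    rw [← h3, Finset.sum_range_succ]
    refine add_le_add ih ?_
    have h4 := var_cell g hx (n : ℤ)
    have h5 : (((n : ℤ) : ℝ) + 1) / m = ((n + 1 : ℕ) : ℝ) / m := by push_cast; rfl
    have h6 : ((n : ℤ) : ℝ) / m = (n : ℝ) / m := by push_cast; rfl
    rw [h5, h6] at h4
    refine h4.trans (le_of_eq ?_)
    push_cast
    rfl

/-- the variation of the polygon is at most its perimeter -/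
theorem var_pl {x : ZMod m → M} (hx : ∀ i, sd x i < D) :
    eVariationOn (pl g x) (Icc 0 1) ≤ ENNReal.ofReal (Pe x) := by
  have hm := m_pos (m := m)
  have h1 := var_upto g hx m
  rw [div_self hm.ne'] at h1
  refine h1.trans (le_of_eq ?_)
  have h2 : ∑ i ∈ Finset.range m, edist (x (i : ℕ)) (x ((i : ℕ) + 1)) =
      ∑ i : ZMod m, ENNReal.ofReal (sd x i) := by
    rw [← Fin.sum_univ_eq_sum_range (fun i => edist (x (i : ℕ)) (x ((i : ℕ) + 1))) m]
    obtain ⟨k, rfl⟩ : ∃ k, m = k + 1 := ⟨m - 1, (Nat.succ_pred_eq_of_ne_zero (NeZero.ne m)).symm⟩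
    refine Fintype.sum_congr _ _ fun (i : ZMod (k + 1)) => ?_
    have h3 : ((ZMod.val i : ℕ) : ZMod (k + 1)) = i := ZMod.natCast_zmod_val (n := k + 1) i
    change edist (x ((ZMod.val i : ℕ) : ZMod (k + 1))) (x (((ZMod.val i : ℕ) : ZMod (k + 1)) + 1)) =
      ENNReal.ofReal (dist (x i) (x (i + 1)))
    rw [h3, edist_dist]
  rw [h2, Pe, ENNReal.ofReal_sum_of_nonneg fun i _ => sd_nonneg x i]

/-! ### smoothness -/

/-- smooth families of polygons -/
def dPi (DM : Dif M) (m : ℕ) [NeZero m] : Dif (ZMod m → M) where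
  At {E} _ _ _ u x := ∀ i, DM.At (fun y => u y i) x
  open' h := eventually_all.2 fun i => DM.open' (h i)
  congr h huv i := DM.congr (h i) (huv.mono fun y hy => congrFun hy i)
  comp h hg i := DM.comp (h i) hg

variable {E : Type} [NormedAddCommGroup E] [NormedSpace ℝ E] [FiniteDimensional ℝ E]

theorem at_pl {z : E → ZMod m → M} {τ : E → ℝ} {y₀ : E} (hz : (dPi DM m).At z y₀)
    (hτ : Sm τ y₀) (hx : ∀ i, sd (z y₀) i < D) :
    DM.At (fun y => pl g (z y) (τ y)) y₀ := by
  have hm := m_pos (m := m)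
  have hc : ∀ i, ∀ᶠ y in 𝓝 y₀, sd (z y) i < D := fun i =>
    ((g.cont (hz i)).dist (g.cont (hz (i + 1)))).eventually_lt continuousAt_const (hx i)
  have hc' : ∀ᶠ y in 𝓝 y₀, ∀ i, sd (z y) i < D := eventually_all.2 hc
  have hτ' : Sm (fun y => (m : ℝ) * τ y) y₀ := by
    filter_upwards [hτ] with y hy using contDiffAt_const.mul hy
  set i : ℤ := ⌊(m : ℝ) * τ y₀⌋ with hi
  have h0 : (i : ℝ) ≤ m * τ y₀ := Int.floor_le _
  have h1 : (m : ℝ) * τ y₀ < i + 1 := Int.lt_floor_add_one _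
  rcases eq_or_lt_of_le h0 with h | h
  · have h2 : ∀ᶠ y in 𝓝 y₀, |(m : ℝ) * τ y - i| < 1 / 3 := by
      have h3 : ContinuousAt (fun y => |(m : ℝ) * τ y - i|) y₀ :=
        (hτ'.continuousAt.sub continuousAt_const).abs
      refine h3.eventually_lt continuousAt_const ?_
      rw [← h, sub_self, abs_zero]
      norm_num
    refine DM.congr (hz (i : ZMod m)) ?_
    filter_upwards [h2, hc'] with y hy hy2
    exact (pl_vertex g hy2 hy.le).symm
  · have h2 : Sm (fun y => stp (m * τ y - i)) y₀ := by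
      have h3 : Sm (fun y => (m : ℝ) * τ y - i) y₀ := by
        filter_upwards [hτ'] with y hy using hy.sub contDiffAt_const
      exact (Sm.of_contDiff stp_contDiff _).comp h3
    have h3 := g.smooth (hz (i : ZMod m)) (hz ((i : ZMod m) + 1)) h2 (hx _)
    refine DM.congr h3 ?_
    have h4 : ∀ᶠ y in 𝓝 y₀, (i : ℝ) < m * τ y :=
      continuousAt_const.eventually_lt hτ'.continuousAt h
    have h5 : ∀ᶠ y in 𝓝 y₀, (m : ℝ) * τ y < i + 1 :=
      hτ'.continuousAt.eventually_lt continuousAt_const h1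
    filter_upwards [h4, h5, hc'] with y hy1 hy2 hy3
    exact (pl_eq g hy3 hy1.le hy2.le).symm

/-! ### the map to the universal family -/

section toLL

variable {V : ℝ≥0∞} {δ : ℝ} {J : ℕ} {ρ : ℝ}

/-- the Lipschitz constant of the polygons with edges at most `ρ` -/
noncomputable def Sp (m : ℕ) (ρ : ℝ) : NNReal := Real.toNNReal (m * lstp * ρ)

/-- a polygon, as an element of the universal family -/
noncomputable def plL (hρ : ρ < D) {a : Fin J → ℂ} (ha : ∃ j, δ ≤ ‖a j‖)
    (x : ZMod m → M) (hx : ∀ i, sd x i ≤ ρ) (hV : ENNReal.ofReal (Pe x) ≤ V)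
    (hpt : ∀ i, DM.At (fun _ : ℝ => x i) 0) : LL DM (Sp m ρ) V δ J where
  c := pl g x
  a := a
  sm := fun {E} _ _ _ {u y} hu => by
    have hx' : ∀ i, sd x i < D := fun i => (hx i).trans_lt hρ
    exact at_pl g (z := fun _ : E => x) (τ := u) (fun i => DM.comp (u := fun _ : ℝ => x i)
      (g := fun _ : E => (0 : ℝ)) (hpt i) (Sm.of_contDiff contDiff_const _)) hu hx'
  per := pl_per g x
  lip := lip_pl g hρ hx
  var := (var_pl g fun i => (hx i).trans_lt hρ).trans hV
  bound := ha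

theorem plL_c (hρ : ρ < D) {a : Fin J → ℂ} (ha : ∃ j, δ ≤ ‖a j‖)
    (x : ZMod m → M) (hx : ∀ i, sd x i ≤ ρ) (hV : ENNReal.ofReal (Pe x) ≤ V)
    (hpt : ∀ i, DM.At (fun _ : ℝ => x i) 0) (t : ℝ) :
    (plL g hρ ha x hx hV hpt : LL DM (Sp m ρ) V δ J).c t = pl g x t := rfl

/-- smooth families of polygons map to the universal family -/
theorem map_plL {Y : Type*} {DY : Dif Y} (hρ : ρ < D) {a : Fin J → ℂ} (ha : ∃ j, δ ≤ ‖a j‖)
    {z : Y → ZMod m → M} (hz : DY.Map (dPi DM m) z) (hx : ∀ y i, sd (z y) i ≤ ρ)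
    (hV : ∀ y, ENNReal.ofReal (Pe (z y)) ≤ V) (hpt : ∀ y i, DM.At (fun _ : ℝ => z y i) 0) :
    DY.Map (dLL DM (Sp m ρ) V δ J) fun y => plL g hρ ha (z y) (hx y) (hV y) (hpt y) := by
  refine map_free (c := fun y t => pl g (z y) t) (a := fun _ => a) ?_ ?_ (fun y t => rfl)
    fun y => rfl
  · intro E _ _ _ u y hu
    exact at_pl g (z := fun w => z (u w).1) (τ := fun w => (u w).2) (hz hu.1) hu.2
      fun i => (hx _ i).trans_lt hρ
  · intro E _ _ _ u y hu
    exact Sm.of_contDiff contDiff_const _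

end toLL

end Vale.Agent.P231.S3B1
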