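import Vale.Agent.P231.S3B1.Cl8
import Vale.Agent.P231.S2N.Main

/-!
# P231, stage 3, block S3-B1: coordinates on the family of the corner loops

`sph v c` is a unit vector with the same foot and the same end as `v`; as a function of the
component of `c` in the negative space of `v` it wraps once around the unit sphere of the plane:
it is `v` for `0` and `-v` for vectors of length at least one.
-/

set_option maxSynthPendingDepth 3
set_option linter.unusedSectionVars false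
set_option linter.unusedVariables false

open Bundle Manifold Set Filter Module
open scoped ContDiff Manifold Topology ENNReal

namespace Vale.Agent.P231.S3B1

noncomputable section

open Vale.Agent.P234 Vale.Agent.P231 Vale.Agent.P231.H775 Vale.Agent.P231.Fm Vale.Agent.P231.W
  Vale.Agent.P231.WD3 Vale.Agent.P231.H766 Vale.Agent.P231.S3A Vale.Agent.P231.S3L
  Vale.Agent.P231.S3R Vale.Agent.P231.WR Vale.Agent.P231.S2N Vale.Agent.P231.WF

/-! ### two cut-off functions -/

/-- the coefficient of the vector -/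
def alc (s : ℝ) : ℝ := 1 - 2 * H766.stp (2 * s)

/-- the coefficient of the direction -/
def bec (s : ℝ) : ℝ := 1 - H766.stp s

theorem alc_contDiff : ContDiff ℝ ∞ alc :=
  contDiff_const.sub (contDiff_const.mul (stp_contDiff.comp (contDiff_const.mul contDiff_id)))

theorem bec_contDiff : ContDiff ℝ ∞ bec := contDiff_const.sub stp_contDiff

theorem alc_of_le {s : ℝ} (h : s ≤ 1 / 6) : alc s = 1 := by
  rw [alc, stp_of_le (by linarith)]
  norm_num

theorem alc_of_ge {s : ℝ} (h : 1 / 3 ≤ s) : alc s = -1 := by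
  rw [alc, stp_of_ge (by linarith)]
  norm_num

theorem bec_of_le {s : ℝ} (h : s ≤ 1 / 3) : bec s = 1 := by
  rw [bec, stp_of_le h, sub_zero]

theorem bec_of_ge {s : ℝ} (h : 2 / 3 ≤ s) : bec s = 0 := by
  rw [bec, stp_of_ge h, sub_self]

variable {E : Type*} [NormedAddCommGroup E] [NormedSpace ℝ E] [FiniteDimensional ℝ E]
  {M : Type*} [MetricSpace M] [ChartedSpace E M] [IsManifold 𝓘(ℝ, E) ∞ M]
  [RiemannianBundle (fun x : M => TangentSpace 𝓘(ℝ, E) x)]
  [IsContMDiffRiemannianBundle 𝓘(ℝ, E) ∞ E (fun x : M => TangentSpace 𝓘(ℝ, E) x)]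
  {e : ∀ x : M, TangentSpace 𝓘(ℝ, E) x → M}
  [CompactSpace M] [ConnectedSpace M] [IsRiemannianManifold 𝓘(ℝ, E) M]
  {D : ℝ} {ι : Type} [Fintype ι] [DecidableEq ι]

/-! ### the vectors -/

/-- the vector before the normalisation -/
def sphv (F : Facts e) (hD : 0 < D) (hB : InjGE e D) (hdiam : ∀ p q : M, dist p q ≤ D)
    (X δ : ι → UT E M → E) (ε : ℝ) (v : UT E M) (c : EuclideanSpace ℝ ι) : E :=
  alc (‖Pm F D X δ ε v c‖ ^ 2) • vec' v +
    bec (‖Pm F D X δ ε v c‖ ^ 2) • Th0 F hD hB hdiam (XX X (Pm F D X δ ε v c)) v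

variable (F : Facts e) (hD : 0 < D) (hB : InjGE e D) (hdiam : ∀ p q : M, dist p q ≤ D)
  {l : ℕ} {X δ : ι → UT E M → E} {ε : ℝ}

theorem Th0_zero' (v : UT E M) :
    Th0 F hD hB hdiam (XX X (0 : EuclideanSpace ℝ ι)) v = 0 := by
  rw [Th0_XX]
  refine Finset.sum_eq_zero fun i _ => ?_
  rw [PiLp.zero_apply, zero_smul]

theorem ip_sphv (v : UT E M) (c : EuclideanSpace ℝ ι) :
    ip (foot v) (vec' v) (sphv F hD hB hdiam X δ ε v c) = alc (‖Pm F D X δ ε v c‖ ^ 2) := by
  have h1 := (mem_Lf.1 (Th0_mem F hD hB hdiam (XX X (Pm F D X δ ε v c)) v)).2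
  have h2 : ip (foot v) (vec' v) (vec' v) = 1 := by
    have h3 := nm_vec' v
    have h4 : ip (foot v) (vec' v) (vec' v) = nm (foot v) (vec' v) ^ 2 :=
      real_inner_self_eq_norm_sq (F := TangentSpace 𝓘(ℝ, E) (foot v)) _
    rw [h4, h3, one_pow]
  rw [sphv, ip_add_right', ip_smul_right', ip_smul_right', h1, h2, mul_zero, add_zero, mul_one]

theorem ip_sphv_Th0 (v : UT E M) (c : EuclideanSpace ℝ ι) :
    ip (foot v) (Th0 F hD hB hdiam (XX X (Pm F D X δ ε v c)) v) (sphv F hD hB hdiam X δ ε v c) =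
      bec (‖Pm F D X δ ε v c‖ ^ 2) *
        nm (foot v) (Th0 F hD hB hdiam (XX X (Pm F D X δ ε v c)) v) ^ 2 := by
  have h1 := (mem_Lf.1 (Th0_mem F hD hB hdiam (XX X (Pm F D X δ ε v c)) v)).2
  have h2 : ip (foot v) (Th0 F hD hB hdiam (XX X (Pm F D X δ ε v c)) v)
      (Th0 F hD hB hdiam (XX X (Pm F D X δ ε v c)) v) =
        nm (foot v) (Th0 F hD hB hdiam (XX X (Pm F D X δ ε v c)) v) ^ 2 :=
    real_inner_self_eq_norm_sq (F := TangentSpace 𝓘(ℝ, E) (foot v)) _
  rw [sphv, ip_add_right', ip_smul_right', ip_smul_right', h2, ip_comm', h1, mul_zero, zero_add]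

theorem sphv_mem (v : UT E M) (c : EuclideanSpace ℝ ι) :
    (sphv (E := E) F hD hB hdiam X δ ε v c : TangentSpace 𝓘(ℝ, E) (foot v)) ∈
      H775.Pl e D (bar e D v) (foot v) := by
  have h1 := (mem_Lf.1 (Th0_mem F hD hB hdiam (XX X (Pm F D X δ ε v c)) v)).1
  exact Submodule.add_mem _ (Submodule.smul_mem _ _ (H775.Lk_subset_Pl D _ _ (mem_Lk_self D v)))
    (Submodule.smul_mem _ _ h1)

variable {F hD hB hdiam}
variable (hP : ∀ x y : M, dist x y = D → finrank ℝ (H775.Pl e D x y) = l + 1)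
  (h : Fam F hD hB hdiam l X δ ε)

include hP h in
/-- the direction vanishes only with the coefficient vector -/
theorem Pm_eq_zero {v : UT E M} {c : EuclideanSpace ℝ ι}
    (h0 : Th0 F hD hB hdiam (XX X (Pm F D X δ ε v c)) v = 0) : Pm F D X δ ε v c = 0 :=
  h.inj hP v (h.Pm_Pm v c) h0

include hP h in
theorem sphv_ne (v : UT E M) (c : EuclideanSpace ℝ ι) :
    sphv F hD hB hdiam X δ ε v c ≠ 0 := by
  intro h0
  have h1 := ip_sphv F hD hB hdiam (X := X) (δ := δ) (ε := ε) v c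
  have h2 := ip_sphv_Th0 F hD hB hdiam (X := X) (δ := δ) (ε := ε) v c
  have h3 : ∀ a : E, ip (foot v) a (0 : E) = 0 := fun a =>
    inner_zero_right (𝕜 := ℝ) (E := TangentSpace 𝓘(ℝ, E) (foot v)) _
  rw [h0, h3] at h1 h2
  have h4 : ‖Pm F D X δ ε v c‖ ^ 2 < 1 / 3 := by
    by_contra h5
    rw [alc_of_ge (not_lt.1 h5)] at h1
    norm_num at h1
  rw [bec_of_le h4.le, one_mul] at h2
  have h5 : nm (foot v) (Th0 F hD hB hdiam (XX X (Pm F D X δ ε v c)) v) = 0 :=
    pow_eq_zero_iff (two_ne_zero) |>.1 h2.symm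
  have h6 : Th0 F hD hB hdiam (XX X (Pm F D X δ ε v c)) v = 0 := by
    by_contra h7
    exact nm_ne_zero h7 h5
  rw [Pm_eq_zero hP h h6, norm_zero, alc_of_le (by norm_num)] at h1
  norm_num at h1

/-- **the sphere of unit vectors around `v`** -/
def sph (v : UT E M) (c : EuclideanSpace ℝ ι) : UT E M :=
  mk (foot v) (S2N.nrm (foot v) (sphv F hD hB hdiam X δ ε v c)) (nm_nrm (sphv_ne hP h v c))

@[simp] theorem foot_sph (v : UT E M) (c : EuclideanSpace ℝ ι) : foot (sph hP h v c) = foot v := rfl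

theorem vec'_sph (v : UT E M) (c : EuclideanSpace ℝ ι) :
    vec' (sph hP h v c) = S2N.nrm (foot v) (sphv F hD hB hdiam X δ ε v c) := rfl

theorem bar_sph (v : UT E M) (c : EuclideanSpace ℝ ι) : bar e D (sph hP h v c) = bar e D v := by
  have h1 : ((vec' (sph hP h v c) : E) : TangentSpace 𝓘(ℝ, E) (foot v)) ∈
      H775.Pl e D (bar e D v) (foot v) :=
    Submodule.smul_mem _ _ (sphv_mem F hD hB hdiam v c)
  have h2 := (mem_Lk_iff F hD hB hdiam (dist_bar' F hD hB v)).2
    ⟨(nm_vec' (sph hP h v c) : _), h1⟩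
  exact h2.2

theorem sph_of_zero {v : UT E M} {c : EuclideanSpace ℝ ι} (h0 : Pm F D X δ ε v c = 0) :
    sph hP h v c = v := by
  refine mk_congr rfl ?_
  have h1 : sphv F hD hB hdiam X δ ε v c = vec' v := by
    rw [sphv, h0, norm_zero, alc_of_le (by norm_num), Th0_zero', smul_zero, add_zero, one_smul]
  rw [h1]
  exact nrm_of_one (nm_vec' v)

theorem sph_near {v : UT E M} {c : EuclideanSpace ℝ ι} (h0 : ‖Pm F D X δ ε v c‖ ^ 2 ≤ 1 / 6) :
    vec' (sph hP h v c) = S2N.nrm (foot v)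
      (vec' v + Th0 F hD hB hdiam (XX X (Pm F D X δ ε v c)) v) := by
  rw [vec'_sph, sphv, alc_of_le h0, bec_of_le (by linarith), one_smul, one_smul]

theorem sph_far {v : UT E M} {c : EuclideanSpace ℝ ι} (h0 : 2 / 3 ≤ ‖Pm F D X δ ε v c‖ ^ 2) :
    sph hP h v c = ng v := by
  refine mk_congr rfl ?_
  have h1 : sphv F hD hB hdiam X δ ε v c = -vec' v := by
    rw [sphv, alc_of_ge (by linarith), bec_of_ge h0, zero_smul, add_zero, neg_smul, one_smul]
  rw [h1, nrm_neg, nrm_of_one (nm_vec' v)]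

/-- only the centre is mapped to `v` -/
theorem Pm_of_sph {v : UT E M} {c : EuclideanSpace ℝ ι} (h0 : sph hP h v c = v) :
    Pm F D X δ ε v c = 0 := by
  have h1 : vec' (sph hP h v c) = vec' v := by rw [h0]
  set s := sphv F hD hB hdiam X δ ε v c with hs
  have h2 : 0 < nm (foot v) s := nm_pos' (sphv_ne hP h v c)
  have h3 : s = nm (foot v) s • vec' v := by
    rw [← h1, vec'_sph, ← hs, S2N.nrm, smul_smul, mul_inv_cancel₀ h2.ne', one_smul]
  have h4 := ip_sphv F hD hB hdiam (X := X) (δ := δ) (ε := ε) v c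
  have h5 := ip_sphv_Th0 F hD hB hdiam (X := X) (δ := δ) (ε := ε) v c
  rw [← hs] at h4 h5
  have h6 := (mem_Lf.1 (Th0_mem F hD hB hdiam (XX X (Pm F D X δ ε v c)) v)).2
  have h7 : ip (foot v) (vec' v) (vec' v) = 1 := by
    have h4 : ip (foot v) (vec' v) (vec' v) = nm (foot v) (vec' v) ^ 2 :=
      real_inner_self_eq_norm_sq (F := TangentSpace 𝓘(ℝ, E) (foot v)) _
    rw [h4, nm_vec' v, one_pow]
  rw [h3, ip_smul_right', h7, mul_one] at h4
  rw [h3, ip_smul_right', ip_comm', h6, mul_zero] at h5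
  have h8 : ‖Pm F D X δ ε v c‖ ^ 2 < 1 / 3 := by
    by_contra h9
    rw [alc_of_ge (not_lt.1 h9)] at h4
    rw [h4] at h2
    norm_num at h2
  rw [bec_of_le h8.le, one_mul] at h5
  have h9 : nm (foot v) (Th0 F hD hB hdiam (XX X (Pm F D X δ ε v c)) v) = 0 :=
    pow_eq_zero_iff (two_ne_zero) |>.1 h5.symm
  refine Pm_eq_zero hP h ?_
  by_contra h10
  exact nm_ne_zero h10 h9

/-- the vector depends only on the component in the negative space -/
theorem sph_congr {v : UT E M} {c c' : EuclideanSpace ℝ ι}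
    (h0 : Pm F D X δ ε v c = Pm F D X δ ε v c') : sph hP h v c = sph hP h v c' := by
  refine mk_congr rfl ?_
  rw [sphv, sphv, h0]

theorem sph_Pm (v : UT E M) (c : EuclideanSpace ℝ ι) :
    sph hP h v (Pm F D X δ ε v c) = sph hP h v c := sph_congr hP h (h.Pm_Pm v c)

theorem at_sph {E' : Type} [NormedAddCommGroup E'] [NormedSpace ℝ E'] [FiniteDimensional ℝ E']
    {u : E' → UT E M} {c : E' → EuclideanSpace ℝ ι} {x : E'} (hu : (dUT E M).At u x)
    (hc : Sm c x) : (dUT E M).At (fun s => sph hP h (u s) (c s)) x := by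
  have hTh : ∀ i, Fld (Th0 F hD hB hdiam (X i)) := fun i =>
    fld_Th0 F hD hB hdiam hP (h.df i).fld
  have h1 : Sm (fun s => Pm F D X δ ε (u s) (c s)) x := by
    filter_upwards [h.sm_Pm hu, hc] with s h2 h3 using h2.clm_apply h3
  have h2 : Sm (fun s => ‖Pm F D X δ ε (u s) (c s)‖ ^ 2) x := by
    filter_upwards [h1] with s h2 using h2.norm_sq ℝ
  have h3 := at_XX hTh hu h1
  have h4 : (dTM E M).At (fun s => tb (foot (u s))
      (Th0 F hD hB hdiam (XX X (Pm F D X δ ε (u s) (c s))) (u s))) x := by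
    have h5 : (fun s => tb (foot (u s))
        (Th0 F hD hB hdiam (XX X (Pm F D X δ ε (u s) (c s))) (u s))) =
        fun s => tb (foot (u s)) (XX (fun i => Th0 F hD hB hdiam (X i))
          (Pm F D X δ ε (u s) (c s)) (u s)) := by
      funext s
      refine tb_congr rfl ?_
      rw [Th0_XX]
      rfl
    rw [h5]
    exact h3
  have h5 : (dTM E M).At (fun s => tb (foot (u s)) (vec' (u s))) x := hu
  have h6 : Sm (fun s => alc (‖Pm F D X δ ε (u s) (c s)‖ ^ 2)) x :=
    (Sm.of_contDiff alc_contDiff _).comp h2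
  have h7 : Sm (fun s => bec (‖Pm F D X δ ε (u s) (c s)‖ ^ 2)) x :=
    (Sm.of_contDiff bec_contDiff _).comp h2
  exact at_nrm (at_add (at_smul h6 h5) (at_smul h7 h4)) fun s => sphv_ne hP h (u s) (c s)

theorem map_sph : ((dUT E M).prod (Dif.lin (EuclideanSpace ℝ ι))).Map (dUT E M)
    fun p => sph hP h p.1 p.2 := fun {E'} _ _ _ {u x} hu => at_sph hP h hu.1 hu.2

end

end Vale.Agent.P231.S3B1
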